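import Crest.Agent.N067.S.Defs

/-!
# Row 67, block STAB: the gain of `|B|²` (helper31)
-/

set_option autoImplicit false

open MeasureTheory Laplacian InnerProductSpace Topology Filter Set Metric
open scoped RealInnerProductSpace ContDiff Gradient ENNReal NNReal

namespace Crest.Agent.N067.S

open Crest.Agent.R077 Crest.Agent.N067.Ker Crest.Agent.N067.M

variable {n : ℕ}

namespace BG

theorem tail (n : ℕ) {η : ℝ} (hη : 0 < η) : ∃ L : ℝ, 0 < L ∧ ∀ y : EE n,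
    ∫⁻ x, ind (L ≤ ‖y - x‖) * oR (3 * Gk 2 (y - x)) ≤ oR η := by
  have i := integrable_Gk_exp (n := n) (μ := 2) (a := 1) two_pos (by norm_num)
  have n0 : ∀ z : EE n, 0 ≤ Gk 2 z * Real.exp (1 * ‖z‖) := fun z =>
    mul_nonneg (Gk_nonneg 2 z) (Real.exp_pos _).le
  obtain ⟨K, hK⟩ : ∃ K, K = ∫ z : EE n, Gk 2 z * Real.exp (1 * ‖z‖) := ⟨_, rfl⟩
  have hK0 : 0 ≤ K := hK ▸ integral_nonneg n0
  obtain ⟨L, hL⟩ : ∃ L, L = 3 * K / η + 1 := ⟨_, rfl⟩
  refine ⟨L, by rw [hL]; positivity, fun y => ?_⟩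
  rw [lintegral_sub_left_eq_self (fun z : EE n => ind (L ≤ ‖z‖) * oR (3 * Gk 2 z)) y]
  calc _ ≤ ∫⁻ z : EE n, oR (3 * Real.exp (-L) * (Gk 2 z * Real.exp (1 * ‖z‖))) := by
        refine lintegral_mono fun z => ind_mul_le fun h => ENNReal.ofReal_le_ofReal ?_
        have h1 : 1 ≤ Real.exp (-L) * Real.exp (1 * ‖z‖) := by
          rw [← Real.exp_add]; exact Real.one_le_exp (by linarith)
        nlinarith [Gk_nonneg 2 z]
    _ = oR (3 * Real.exp (-L) * K) := by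
        rw [← ofReal_integral_eq_lintegral_ofReal (i.const_mul _)
          (Eventually.of_forall fun z => mul_nonneg (by positivity) (n0 z)), integral_const_mul, hK]
    _ ≤ _ := by
        refine ENNReal.ofReal_le_ofReal ?_
        have h1 := Real.add_one_le_exp L
        have h2 : 3 * K ≤ η * Real.exp L := by
          rw [← div_le_iff₀' hη]; linarith
        rw [Real.exp_neg, mul_right_comm, ← div_eq_mul_inv, div_le_iff₀ (Real.exp_pos _)]
        exact h2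

theorem psi_ge {v : EE n → ℝ} (hv : Sol v) {y : EE n} {T : ℝ} (h : |dd v y| ≤ T) :
    (Real.exp T ^ 2)⁻¹ ≤ psi v y := by
  have h1 := cosh_le_exp_mul 0 (dd v y / Real.sqrt 2)
  rw [Real.cosh_zero, mul_one, zero_sub, abs_neg, abs_div, abs_of_pos sqrt2_pos] at h1
  have h2 : |dd v y| / Real.sqrt 2 ≤ T :=
    (div_le_self (abs_nonneg _) (Real.one_le_sqrt.2 one_le_two)).trans h
  have h3 := Real.cosh_pos (dd v y / Real.sqrt 2)
  rw [hv.psi_eq_cosh, one_div]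
  exact inv_anti₀ (by positivity) (pow_le_pow_left₀ h3.le (h1.trans (Real.exp_le_exp.2 h2)) 2)

theorem mass {v : EE n → ℝ} (hv : Sol v) {y : EE n} {L η a : ℝ} (ha : 0 ≤ a) (ha1 : a ≤ 1)
    (hL : ∫⁻ x, ind (L ≤ ‖y - x‖) * oR (3 * Gk 2 (y - x)) ≤ oR η) (hη : η ≤ a * psi v y) :
    oR ((1 - a) * psi v y) ≤ ∫⁻ x, ind (‖y - x‖ < L) * oR (3 * psi v x ^ 2 * Gk 2 (y - x)) := by
  have hψ := IsSol.psi_mem hv.isSol
  have cψ := hv.psi_sm.continuous
  have ct := hv.continuous_tt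
  have mG : Measurable fun x : EE n => Gk 2 (y - x) := (measurable_Gk 2).comp (by fun_prop)
  have e1 : psi v y = ∫ x, Gk 2 (y - x) * (psi v x ^ 2 * (3 - tt v x)) := by
    rw [← res_eq, ← psi_eq_res hv]
  have e2 : oR (psi v y) ≤ ∫⁻ x, oR (Gk 2 (y - x) * (psi v x ^ 2 * (3 - tt v x))) := by
    rw [e1, integral_eq_lintegral_of_nonneg_ae (Eventually.of_forall fun x =>
      mul_nonneg (Gk_nonneg _ _) (mul_nonneg (sq_nonneg _) (by linarith [tt_le_one v x])))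
      (mG.mul (by fun_prop)).aestronglyMeasurable]
    exact ENNReal.ofReal_toReal_le
  have m2 : Measurable fun x : EE n => ind (L ≤ ‖y - x‖) * oR (3 * Gk 2 (y - x)) :=
    (measurable_ind (measurableSet_le measurable_const (by fun_prop))).mul
      (mG.const_mul 3).ennreal_ofReal
  have e3 : ∫⁻ x, oR (Gk 2 (y - x) * (psi v x ^ 2 * (3 - tt v x))) ≤
      (∫⁻ x, ind (‖y - x‖ < L) * oR (3 * psi v x ^ 2 * Gk 2 (y - x))) +
        ∫⁻ x, ind (L ≤ ‖y - x‖) * oR (3 * Gk 2 (y - x)) := by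
    rw [← lintegral_add_right _ m2]
    refine lintegral_mono fun x => ?_
    have g0 := Gk_nonneg 2 (y - x)
    have p1 : psi v x ^ 2 ≤ 1 := pow_le_one₀ (hψ x).1 (hψ x).2
    have p2 := mul_nonneg g0 (mul_nonneg (sq_nonneg (psi v x)) (hv.tt_nonneg x))
    rcases lt_or_ge ‖y - x‖ L with h | h
    · rw [ind_of h, one_mul]
      exact le_add_right (ENNReal.ofReal_le_ofReal (by linarith))
    · rw [ind_of h, one_mul]
      exact le_add_left (ENNReal.ofReal_le_ofReal (by nlinarith))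
  have e4 := e2.trans (e3.trans (add_le_add le_rfl (hL.trans (ENNReal.ofReal_le_ofReal hη))))
  have e5 : oR (psi v y) = oR ((1 - a) * psi v y) + oR (a * psi v y) := by
    rw [← ENNReal.ofReal_add (mul_nonneg (by linarith) (hψ y).1) (mul_nonneg ha (hψ y).1)]
    congr 1; ring
  rw [e5] at e4
  exact (ENNReal.add_le_add_iff_right ENNReal.ofReal_ne_top).1 e4

theorem near (n : ℕ) (L : ℝ) : ∃ K : ℝ, 0 ≤ K ∧ ∀ v : EE n → ℝ, Sol v → ∀ x y : EE n,
    ‖y - x‖ < L → ‖nn v y - nn v x‖ ^ 2 ≤ K * tt v y := by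
  obtain ⟨K0, hK0, h0⟩ := hk_hsq n
  obtain ⟨C, hC, h1⟩ := hk_har n
  refine ⟨n * (K0 * Real.exp (C * L) * L ^ 2), by positivity, fun v hv x y hxy => ?_⟩
  have hL : 0 < L := (norm_nonneg _).trans_lt hxy
  have ht := hv.tt_nonneg y
  have key : ∀ i, (pdv i (dd v) y - pdv i (dd v) x) ^ 2 ≤
      K0 * Real.exp (C * L) * L ^ 2 * tt v y := fun i => by
    have b1 : ∀ z ∈ ball y L, ‖fderiv ℝ (pdv i (dd v)) z‖ ≤ √(K0 * Real.exp (C * L) * tt v y) := by
      intro z hz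
      refine Real.le_sqrt_of_sq_le ?_
      rw [← norm_grad, ← gsq_eq]
      have c1 : gsq (pdv i (dd v)) z ≤ hsq (dd v) z :=
        Finset.sum_le_sum fun j _ => Finset.single_le_sum
          (f := fun k => pdv j (pdv k (dd v)) z ^ 2) (fun _ _ => sq_nonneg _) (Finset.mem_univ i)
      have c2 : ‖y - z‖ ≤ L := by rw [← dist_eq_norm, dist_comm]; exact (mem_ball.1 hz).le
      have c3 : tt v z ≤ Real.exp (C * L) * tt v y := (h1 v hv y z).trans (by gcongr)
      calc _ ≤ K0 * tt v z := c1.trans (h0 v hv z)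
        _ ≤ K0 * (Real.exp (C * L) * tt v y) := by gcongr
        _ = _ := by ring
    have b2 := (convex_ball y L).norm_image_sub_le_of_norm_fderiv_le
      (fun z _ => (hv.pdv_dd_sm i).differentiable (by simp) z) b1
      (mem_ball.2 (by rwa [dist_comm, dist_eq_norm])) (mem_ball_self hL)
    rw [Real.norm_eq_abs] at b2
    calc _ = |pdv i (dd v) y - pdv i (dd v) x| ^ 2 := (sq_abs _).symm
      _ ≤ (√(K0 * Real.exp (C * L) * tt v y) * L) ^ 2 := by
        refine pow_le_pow_left₀ (abs_nonneg _) (b2.trans ?_) 2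
        gcongr
      _ = _ := by rw [mul_pow, Real.sq_sqrt (by positivity)]; ring
  rw [EuclideanSpace.real_norm_sq_eq]
  calc _ ≤ ∑ _i : Fin n, K0 * Real.exp (C * L) * L ^ 2 * tt v y :=
        Finset.sum_le_sum fun i _ => by simpa [nn, grad_apply] using key i
    _ = _ := by simp [mul_assoc]

theorem th_ge {ε s a : ℝ} (hε : 0 < ε) (hs : 0 ≤ s) (ha : a ≤ 1) (h : 2 * s ≤ a * ε ^ 2) :
    1 - a ≤ (ε / √(ε ^ 2 + s)) ^ 3 := by
  have h0 : 0 < ε ^ 2 + s := by positivity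
  have h1 : 0 < √(ε ^ 2 + s) := Real.sqrt_pos.2 h0
  have h2 : ε / √(ε ^ 2 + s) ≤ 1 :=
    (div_le_one h1).2 (Real.le_sqrt_of_sq_le (by linarith))
  have h3 : 1 - a / 2 ≤ (ε / √(ε ^ 2 + s)) ^ 2 := by
    have a0 : 0 ≤ a := by
      by_contra h4
      nlinarith [mul_pos (neg_pos.2 (not_le.1 h4)) (pow_pos hε 2)]
    rw [div_pow, Real.sq_sqrt h0.le, le_div_iff₀ h0]
    nlinarith [mul_nonneg a0 hs]
  have h4 : 0 ≤ ε / √(ε ^ 2 + s) := by positivity
  generalize ε / √(ε ^ 2 + s) = t at *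
  have h5 : t ^ 4 ≤ t ^ 3 := pow_le_pow_of_le_one h4 h2 (by norm_num)
  have h6 : (1 - a / 2) ^ 2 ≤ (t ^ 2) ^ 2 := pow_le_pow_left₀ (by linarith) h3 2
  nlinarith [sq_nonneg a]

theorem sq_split {a p q : ℝ} (ha : 0 < a) (ha1 : a ≤ 1) {th : ℝ} (h : 1 - a ≤ th) :
    (1 - a) ^ 2 * q ^ 2 ≤ th * p ^ 2 + a⁻¹ * (p - q) ^ 2 := by
  have h1 : (1 - a) * q ^ 2 ≤ p ^ 2 + a⁻¹ * (p - q) ^ 2 := by
    refine le_of_mul_le_mul_left ?_ ha
    rw [mul_add, ← mul_assoc a a⁻¹, mul_inv_cancel₀ ha.ne', one_mul]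
    nlinarith [sq_nonneg (a * p + (1 - a) * (p - q)), mul_nonneg ha.le (sq_nonneg (p - q))]
  have h2 : 0 ≤ a⁻¹ * (p - q) ^ 2 := by positivity
  have h3 := mul_le_mul_of_nonneg_left h1 (sub_nonneg.2 ha1)
  have h4 := mul_le_mul_of_nonneg_right h (sq_nonneg p)
  nlinarith [mul_nonneg ha.le h2]

theorem pf_nonneg {ε s : ℝ} (hε : 0 < ε) (hs : 0 ≤ s) : 0 ≤ pf ε s :=
  mul_nonneg (by positivity) (sub_nonneg.2 (Real.le_sqrt_of_sq_le (by linarith)))

/-- the use of `PhiStmt` -/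
theorem phi_le (hP : PhiStmt n) {v f : EE n → ℝ} (hv : Sol v) (hf : Measurable f) {ε : ℝ}
    (hε : 0 < ε) (T : ℝ) :
    ∫⁻ x, ∫⁻ y, ind (|dd v x| ≤ T) * oR (3 / 2 * psi v x ^ 2 * f x ^ 2) *
      oR (Gk 2 (y - x) * (2 * psi v y * hsq (dd v) y *
        (ε / √(ε ^ 2 + ‖nn v y - nn v x‖ ^ 2)) ^ 3)) ≤
    (∫⁻ x, ∫⁻ y, ind (|dd v x| ≤ T) *
        (kk v x y * oR (9 / 2 * pf ε (‖nn v y - nn v x‖ ^ 2) * f x ^ 2))) +
      oR (3 * ε) * Tt v f := by
  have cψ := hv.psi_sm.continuous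
  have ct := hv.continuous_tt
  have mG : Measurable fun p : EE n × EE n => Gk 2 (p.2 - p.1) :=
    (measurable_Gk 2).comp (by fun_prop)
  have m1 : Measurable fun p : EE n × EE n =>
      oR (3 * ε) * (kk v p.1 p.2 * oR (tt v p.2 * f p.1 ^ 2)) := by
    unfold kk
    fun_prop
  rw [Tt, ← lintegral_const_mul' _ _ ENNReal.ofReal_ne_top]
  simp_rw [← lintegral_const_mul' (oR (3 * ε)) _ ENNReal.ofReal_ne_top]
  rw [← lintegral_add_right _ m1.lintegral_prod_right']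
  refine lintegral_mono fun x => ?_
  have fin : ind (|dd v x| ≤ T) * oR (3 / 2 * psi v x ^ 2 * f x ^ 2) ≠ ⊤ :=
    ENNReal.mul_ne_top (ne_top_of_le_ne_top ENNReal.one_ne_top (ind_le_one _)) ENNReal.ofReal_ne_top
  rw [lintegral_const_mul' _ _ fin]
  refine (mul_le_mul_right (hP v ε x hv hε) _).trans ?_
  rw [← lintegral_const_mul' _ _ fin]
  refine le_trans (lintegral_mono fun y => ?_)
    (lintegral_add_right _ (m1.comp (measurable_prodMk_left (x := x)))).le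
  rw [mul_assoc]
  refine ind_mul_le fun h => ?_
  have g0 := Gk_nonneg 2 (y - x)
  have p0 := pf_nonneg hε (sq_nonneg ‖nn v y - nn v x‖)
  have t0 := hv.tt_nonneg y
  simp only [Function.comp, kk, ind_of h, one_mul]
  rw [← ENNReal.ofReal_mul (by positivity), ← ENNReal.ofReal_mul (by positivity),
    ← ENNReal.ofReal_mul (by positivity), ← ENNReal.ofReal_mul (by positivity),
    ← ENNReal.ofReal_add (by positivity) (by positivity)]
  exact ENNReal.ofReal_le_ofReal (le_of_eq (by ring))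

end BG

open BG

theorem bg (hP : PhiStmt n) : BGStmt n := by
  intro e T0 he he1
  obtain ⟨c0, hc0⟩ : ∃ c0 : ℝ, c0 = (Real.exp T0 ^ 2)⁻¹ := ⟨_, rfl⟩
  have c0pos : 0 < c0 := by rw [hc0]; positivity
  obtain ⟨a, ha⟩ : ∃ a : ℝ, a = e / 3 := ⟨_, rfl⟩
  have a0 : 0 < a := by rw [ha]; positivity
  have a1 : a ≤ 1 := by linarith
  obtain ⟨L, hL, htail⟩ := tail n (mul_pos a0 c0pos)
  obtain ⟨K, hK, hnear⟩ := near n L
  obtain ⟨K0, hK0, hhs⟩ := hk_hsq n
  refine ⟨L, hL, fun ε δ hε hδ => ⟨min (a * ε ^ 2 / (2 * K + 1)) (a * δ * c0 / (3 * K0 + 1)),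
    lt_min (by positivity) (by positivity), fun v f T hv hf hT => ?_⟩⟩
  generalize hτ : min (a * ε ^ 2 / (2 * K + 1)) (a * δ * c0 / (3 * K0 + 1)) = τ
  have τ1 : τ * (2 * K + 1) ≤ a * ε ^ 2 := by
    rw [← le_div_iff₀ (by positivity), ← hτ]; exact min_le_left _ _
  have τ2 : τ * (3 * K0 + 1) ≤ a * δ * c0 := by
    rw [← le_div_iff₀ (by positivity), ← hτ]; exact min_le_right _ _
  have hψ := IsSol.psi_mem hv.isSol
  have cψ := hv.psi_sm.continuous
  have cd := hv.dd_sm.continuous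
  have ct := hv.continuous_tt
  have ch := hv.hsq_sm.continuous
  have cn : Continuous (nn v) := St.continuous_grad (hv.dd_cd 1)
  have mG : Measurable fun p : EE n × EE n => Gk 2 (p.2 - p.1) :=
    (measurable_Gk 2).comp (by fun_prop)
  have m1 : Measurable fun p : EE n × EE n =>
      oR δ * (kk v p.1 p.2 * oR ((f p.1 - f p.2) ^ 2)) := by
    unfold kk
    fun_prop
  have m0 : Measurable fun p : EE n × EE n => ind (|dd v p.1| ≤ T) :=
    measurable_ind (measurableSet_le (by fun_prop) measurable_const)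
  have m2 : Measurable fun p : EE n × EE n =>
      ind (|dd v p.1| ≤ T) * oR (3 / 2 * psi v p.1 ^ 2 * f p.1 ^ 2) *
        oR (Gk 2 (p.2 - p.1) * (2 * psi v p.2 * hsq (dd v) p.2 *
          (ε / √(ε ^ 2 + ‖nn v p.2 - nn v p.1‖ ^ 2)) ^ 3)) := by
    have : Measurable fun p : EE n × EE n => ‖nn v p.2 - nn v p.1‖ := by fun_prop
    fun_prop
  refine le_trans ?_ (add_le_add (phi_le hP hv hf hε T) le_rfl)
  rw [E0, ← lintegral_const_mul' (oR δ) _ ENNReal.ofReal_ne_top]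
  simp_rw [← lintegral_const_mul' (oR δ) _ ENNReal.ofReal_ne_top]
  rw [← lintegral_add_right _ m1.lintegral_prod_right']
  have e1 : ∀ x, (∫⁻ y, ind (|dd v x| ≤ T) * oR (3 / 2 * psi v x ^ 2 * f x ^ 2) *
      oR (Gk 2 (y - x) * (2 * psi v y * hsq (dd v) y *
        (ε / √(ε ^ 2 + ‖nn v y - nn v x‖ ^ 2)) ^ 3))) +
      ∫⁻ y, oR δ * (kk v x y * oR ((f x - f y) ^ 2)) = _ := fun x =>
    (lintegral_add_right _ (m1.comp (measurable_prodMk_left (x := x)))).symm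
  simp_rw [e1]
  rw [lintegral_lintegral_swap (m2.add m1).aemeasurable,
    ← lintegral_const_mul' _ _ ENNReal.ofReal_ne_top]
  have mB : MeasurableSet {x | |dd v x| ≤ T0 ∧ tt v x ≤ τ} :=
    ((isClosed_le cd.abs continuous_const).inter (isClosed_le ct continuous_const)).measurableSet
  refine le_trans (setLIntegral_mono' mB ?_) (setLIntegral_le_lintegral _ _)
  rintro y ⟨hy1, hy2⟩
  have p0 : c0 ≤ psi v y := hc0 ▸ psi_ge hv hy1
  have h0 := hsq_nonneg (dd v) y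
  have t0 := hv.tt_nonneg y
  have ψ0 := (hψ y).1
  have b0 : 0 ≤ (1 - a) ^ 2 * psi v y * hsq (dd v) y * f y ^ 2 := by positivity
  have b1 := mass hv a0.le a1 (htail y) (mul_le_mul_of_nonneg_left p0 a0.le)
  have b2 : oR (1 - e) * oR (psi v y ^ 2 * hsq (dd v) y * f y ^ 2) ≤
      oR ((1 - a) ^ 2 * psi v y * hsq (dd v) y * f y ^ 2) * oR ((1 - a) * psi v y) := by
    rw [← ENNReal.ofReal_mul (by linarith), ← ENNReal.ofReal_mul b0]
    refine ENNReal.ofReal_le_ofReal ?_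
    have c1 : 1 - e ≤ (1 - a) ^ 3 := by nlinarith [mul_nonneg (sq_nonneg a) (sub_nonneg.2 a1)]
    calc _ ≤ (1 - a) ^ 3 * (psi v y ^ 2 * hsq (dd v) y * f y ^ 2) := by gcongr
      _ = _ := by ring
  refine b2.trans ((mul_le_mul_right b1 _).trans ?_)
  rw [← lintegral_const_mul' _ _ ENNReal.ofReal_ne_top]
  refine lintegral_mono fun x => ?_
  rw [mul_left_comm]
  refine ind_mul_le fun hxy => ?_
  have hx : |dd v x| ≤ T := by
    have c1 := hv.abs_dd_sub_le y x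
    have c2 := abs_sub_abs_le_abs_sub (dd v x) (dd v y)
    rw [abs_sub_comm] at c2
    linarith
  have g0 := Gk_nonneg 2 (y - x)
  have d1 := th_ge (a := a) hε (sq_nonneg ‖nn v y - nn v x‖) a1 (by
    have := hnear v hv x y hxy
    nlinarith [mul_le_mul_of_nonneg_left hy2 hK])
  have d2 := sq_split (p := f x) (q := f y) a0 a1 d1
  have d3 : a⁻¹ * (3 * hsq (dd v) y) ≤ δ * psi v y := by
    rw [inv_mul_le_iff₀ a0]
    have := hhs v hv y
    nlinarith [mul_le_mul_of_nonneg_left hy2 hK0, mul_le_mul_of_nonneg_left p0 (mul_pos a0 hδ).le]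
  have d4 : 0 ≤ (ε / √(ε ^ 2 + ‖nn v y - nn v x‖ ^ 2)) ^ 3 := by positivity
  simp only [Function.comp, kk, ind_of hx, one_mul]
  generalize (ε / √(ε ^ 2 + ‖nn v y - nn v x‖ ^ 2)) ^ 3 = th at d2 d4 ⊢
  rw [← ENNReal.ofReal_mul b0, ← ENNReal.ofReal_mul (by positivity),
    ← ENNReal.ofReal_mul (by positivity), ← ENNReal.ofReal_mul hδ.le,
    ← ENNReal.ofReal_add (by positivity) (by positivity)]
  refine ENNReal.ofReal_le_ofReal ?_
  have d5 := mul_le_mul_of_nonneg_left d2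
    (show 0 ≤ 3 * psi v x ^ 2 * Gk 2 (y - x) * psi v y * hsq (dd v) y by positivity)
  have d6 := mul_le_mul_of_nonneg_left d3
    (show 0 ≤ psi v x ^ 2 * Gk 2 (y - x) * psi v y * (f x - f y) ^ 2 by positivity)
  linarith

end Crest.Agent.N067.S
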