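import Crest.Agent.N067.S.Defs
import Crest.Agent.N067.K.PsiMass
import Crest.Agent.N067.U.Pup

/-!
# Row 67, block STAB: extension of the test function to the deep points (helper43)
-/

set_option autoImplicit false

open MeasureTheory Topology Filter Set Metric
open scoped ENNReal

namespace Crest.Agent.N067.S

open Crest.Agent.R077 Crest.Agent.N067.Ker

noncomputable section

namespace Dp

variable {n : ℕ} {v z : EE n → ℝ} {A : ℝ}

theorem int_exp {a : ℝ} (ha : 0 < a) : Integrable fun w : EE n => Real.exp (-(a * ‖w‖)) := by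
  have h : Integrable fun z : EE n => Real.exp (-‖z‖) := by
    refine ((integrable_one_add_norm (E := EE n) (μ := volume) (r := ((n + 1 : ℕ) : ℝ))
      (by simp)).const_mul (((n + 1).factorial : ℝ) * Real.exp 1)).mono' (by fun_prop)
      (Eventually.of_forall fun z => ?_)
    have h1 := Real.pow_div_factorial_le_exp (1 + ‖z‖) (by positivity) (n + 1)
    rw [Real.norm_of_nonneg (Real.exp_pos _).le, Real.rpow_neg (by positivity), Real.rpow_natCast,
      Real.exp_neg, ← div_eq_mul_inv, le_div_iff₀ (by positivity), inv_mul_le_iff₀ (Real.exp_pos _)]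
    rw [div_le_iff₀ (by positivity), Real.exp_add] at h1
    linarith
  simpa only [norm_smul, Real.norm_of_nonneg ha.le] using h.comp_smul ha.ne'

theorem exp_le_G (hn : 4 ≤ n) : ∃ C : ℝ, 0 < C ∧ ∀ w : EE n, w ≠ 0 →
    Real.exp (-(8 / 5 * ‖w‖)) ≤ C * Gk 2 w := by
  obtain ⟨c, hc, h⟩ := Gk_bounds hn two_pos
  set K : ℝ := 10 ^ (n - 2) * (n - 2).factorial with hK
  have K1 : 1 ≤ K := one_le_mul_of_one_le_of_one_le (one_le_pow₀ (by norm_num))
    (by exact_mod_cast Nat.factorial_pos _)
  refine ⟨K / c, by positivity, fun w hw => ?_⟩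
  have r0 := norm_pos_iff.2 hw
  have e1 : Real.exp (-(8 / 5 * ‖w‖)) * Real.exp (‖w‖ / 10) ≤ Real.exp (-√2 * ‖w‖) := by
    rw [← Real.exp_add]
    exact Real.exp_le_exp.2 (by nlinarith [sqrt2_le])
  have e0 := Real.exp_pos (-(8 / 5 * ‖w‖))
  rw [div_mul_eq_mul_div K, le_div_iff₀ hc]
  rcases le_total 1 ‖w‖ with h1 | h1
  · have a1 := ((h w).1 h1).1
    have a2 := Real.pow_div_factorial_le_exp (‖w‖ / 10) (by positivity) (n - 2)
    rw [div_pow, div_div, div_le_iff₀ (by positivity), ← hK] at a2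
    have a3 : 1 ≤ K * Real.exp (‖w‖ / 10) * (‖w‖ ^ (n - 2))⁻¹ := by
      rw [← div_eq_mul_inv, le_div_iff₀ (by positivity)]; linarith
    calc _ ≤ Real.exp (-(8 / 5 * ‖w‖)) * c * (K * Real.exp (‖w‖ / 10) * (‖w‖ ^ (n - 2))⁻¹) :=
          le_mul_of_one_le_right (by positivity) a3
      _ = K * (c * (‖w‖ ^ (n - 2))⁻¹ * (Real.exp (-(8 / 5 * ‖w‖)) * Real.exp (‖w‖ / 10))) := by
          ring
      _ ≤ K * (c * (‖w‖ ^ (n - 2))⁻¹ * Real.exp (-√2 * ‖w‖)) := by gcongr
      _ ≤ _ := by gcongr
  · have a1 := ((h w).2 hw h1).1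
    have a2 : Real.exp (-(8 / 5 * ‖w‖)) ≤ Real.exp (-√2 * ‖w‖) :=
      (le_mul_of_one_le_right e0.le (Real.one_le_exp (by positivity))).trans e1
    calc _ ≤ c * Real.exp (-√2 * ‖w‖) := by rw [mul_comm]; gcongr
      _ ≤ _ := a1.trans (le_mul_of_one_le_left (Gk_nonneg 2 w) K1)

/-- the weight -/
def kE (w : EE n) : ℝ := Real.exp (-(9 / 5 * ‖w‖))

theorem kE_pos (w : EE n) : 0 < kE w := Real.exp_pos _

theorem kE_int : Integrable (kE : EE n → ℝ) := int_exp (by norm_num)

theorem kE_cont : Continuous (kE : EE n → ℝ) := by unfold kE; fun_prop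

/-- `G * kE ≤ C G` -/
theorem ker (hn : 4 ≤ n) : ∃ C : ℝ, 0 < C ∧ ∀ x m : EE n, m ≠ x →
    ∫⁻ y, oR (Gk 2 (y - x) * kE (m - y)) ≤ oR (C * Gk 2 (m - x)) := by
  obtain ⟨C, hC, h⟩ := exp_le_G hn
  have i1 := int_exp (n := n) (a := 3 / 10) (by norm_num)
  have i2 := integrable_Gk_exp (n := n) (μ := 2) (a := 7 / 5) two_pos (by norm_num)
  set I1 := ∫ w : EE n, Real.exp (-(3 / 10 * ‖w‖)) with hI1
  set I2 := ∫ w : EE n, Gk 2 w * Real.exp (7 / 5 * ‖w‖) with hI2
  have p1 : 0 ≤ I1 := integral_nonneg fun _ => (Real.exp_pos _).le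
  have p2 : 0 ≤ I2 := integral_nonneg fun w => mul_nonneg (Gk_nonneg 2 w) (Real.exp_pos _).le
  refine ⟨2 ^ (n - 2) * I1 + C * I2 + 1, by positivity, fun x m hm => ?_⟩
  have hG := Gk_nonneg 2 (m - x)
  have j1 := (i1.comp_sub_left m).const_mul (2 ^ (n - 2))
  have j2 := (i2.comp_sub_right x).const_mul C
  have q : ∀ y, 0 ≤ 2 ^ (n - 2) * Real.exp (-(3 / 10 * ‖m - y‖)) * Gk 2 (m - x) ∧
      0 ≤ C * (Gk 2 (y - x) * Real.exp (7 / 5 * ‖y - x‖)) * Gk 2 (m - x) := fun y => by
    have := Gk_nonneg 2 (y - x)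
    constructor <;> positivity
  refine le_trans (lintegral_mono (g := fun y => oR ((2 ^ (n - 2) * Real.exp (-(3 / 10 * ‖m - y‖)) +
    C * (Gk 2 (y - x) * Real.exp (7 / 5 * ‖y - x‖))) * Gk 2 (m - x))) fun y =>
      ENNReal.ofReal_le_ofReal ?_) ?_
  · have t1 : ‖m - x‖ - ‖m - y‖ ≤ ‖y - x‖ := by
      linarith [norm_sub_le_norm_sub_add_norm_sub m y x]
    have g0 := Gk_nonneg 2 (y - x)
    rw [add_mul]
    rcases le_total ‖m - x‖ (2 * ‖y - x‖) with h1 | h1
    · refine le_add_of_le_of_nonneg ?_ (q y).2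
      have a1 := Gk_le_far hn (sub_ne_zero.2 hm) (norm_nonneg (m - y)) t1 h1
      have a2 : Real.exp (√2 * ‖m - y‖) * kE (m - y) ≤ Real.exp (-(3 / 10 * ‖m - y‖)) := by
        rw [kE, ← Real.exp_add]
        exact Real.exp_le_exp.2 (by nlinarith [sqrt2_le, norm_nonneg (m - y)])
      calc _ ≤ 2 ^ (n - 2) * Real.exp (√2 * ‖m - y‖) * Gk 2 (m - x) * kE (m - y) :=
            mul_le_mul_of_nonneg_right a1 (kE_pos _).le
        _ = 2 ^ (n - 2) * (Real.exp (√2 * ‖m - y‖) * kE (m - y)) * Gk 2 (m - x) := by ring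
        _ ≤ _ := by gcongr
    · refine le_add_of_nonneg_of_le (q y).1 ?_
      have a2 : kE (m - y) ≤ Real.exp (7 / 5 * ‖y - x‖) * Real.exp (-(8 / 5 * ‖m - x‖)) := by
        rw [kE, ← Real.exp_add]
        exact Real.exp_le_exp.2 (by linarith)
      calc _ ≤ Gk 2 (y - x) * (Real.exp (7 / 5 * ‖y - x‖) * (C * Gk 2 (m - x))) :=
            mul_le_mul_of_nonneg_left (a2.trans (mul_le_mul_of_nonneg_left
              (h _ (sub_ne_zero.2 hm)) (Real.exp_pos _).le)) g0
        _ = _ := by ring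
  · have j3 : Integrable fun y => (2 ^ (n - 2) * Real.exp (-(3 / 10 * ‖m - y‖)) +
        C * (Gk 2 (y - x) * Real.exp (7 / 5 * ‖y - x‖))) * Gk 2 (m - x) :=
      (j1.add j2).mul_const _
    rw [← ofReal_integral_eq_lintegral_ofReal j3 (Eventually.of_forall fun y => by
        have := add_nonneg (q y).1 (q y).2
        rwa [← add_mul] at this), integral_mul_const]
    refine ENNReal.ofReal_le_ofReal (mul_le_mul_of_nonneg_right ?_ hG)
    rw [integral_add j1 j2, integral_const_mul, integral_const_mul,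
      integral_sub_left_eq_self (fun w : EE n => Real.exp (-(3 / 10 * ‖w‖))) volume m,
      integral_sub_right_eq_self (fun w : EE n => Gk 2 w * Real.exp (7 / 5 * ‖w‖)) x]
    linarith

/-- the density on the middle band -/
def bw (v : EE n → ℝ) (m : EE n) : ℝ := if |dd v m| ≤ 1 then psi v m ^ 2 else 0

theorem bw_nonneg (m : EE n) : 0 ≤ bw v m := by unfold bw; split_ifs <;> positivity

theorem bw_le (m : EE n) : bw v m ≤ psi v m ^ 2 := by unfold bw; split_ifs <;> simp [sq_nonneg]

theorem psi2_le (hv : Sol v) (m : EE n) : psi v m ^ 2 ≤ 1 :=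
  pow_le_one₀ (hv.psi_pos m).le (psi_le_one v m)

theorem band_meas (hv : Sol v) (T : ℝ) : MeasurableSet {x | |dd v x| ≤ T} :=
  (isClosed_le hv.dd_sm.continuous.abs continuous_const).measurableSet

theorem bw_meas (hv : Sol v) : Measurable (bw v) :=
  Measurable.ite (band_meas hv 1) (hv.psi_sm.continuous.measurable.pow_const 2) measurable_const

/-- weighted integrals -/
def Nw (v z : EE n → ℝ) (y : EE n) : ℝ := ∫ m, kE (m - y) * (bw v m * z m)

theorem Nw_meas (hv : Sol v) (hz : Measurable z) : Measurable (Nw v z) := by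
  have h : Measurable fun p : EE n × EE n => kE (p.2 - p.1) * (bw v p.2 * z p.2) :=
    (kE_cont.measurable.comp (measurable_snd.sub measurable_fst)).mul
      (((bw_meas hv).mul hz).comp measurable_snd)
  exact h.stronglyMeasurable.integral_prod_right'.measurable

theorem int_w (hv : Sol v) (hz : Measurable z) (hb : ∀ m, |dd v m| ≤ 1 → |z m| ≤ A) (y : EE n) :
    Integrable fun m => kE (m - y) * (bw v m * z m) := by
  refine (kE_int.comp_sub_right y).mul_bdd (c := |A|) ((bw_meas hv).mul hz).aestronglyMeasurable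
    (Eventually.of_forall fun m => ?_)
  unfold bw
  split_ifs with h
  · rw [Real.norm_eq_abs, abs_mul, abs_of_nonneg (sq_nonneg _)]
    exact (mul_le_of_le_one_left (abs_nonneg _) (psi2_le hv m)).trans
      ((hb m h).trans (le_abs_self A))
  · simp

theorem int_1 (hv : Sol v) (c : ℝ) (y : EE n) : Integrable fun m => kE (m - y) * (bw v m * c) :=
  int_w hv measurable_const (fun _ _ => le_rfl) y

/-- the total weight is large compared with `ψ²` at the deep points -/
theorem W_low (n : ℕ) : ∃ C : ℝ, 0 < C ∧ ∀ v : EE n → ℝ, Sol v → ∀ (T : ℝ) (y : EE n),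
    T < |dd v y| → psi v y ^ 2 ≤ C * Real.exp (-(T / 5)) * Nw v (fun _ => 1) y := by
  obtain ⟨C, hC, h⟩ := PsiM.psi_le n
  set V := volume.real (ball (0 : EE n) 1) with hV
  have V0 : 0 < V := ENNReal.toReal_pos (measure_ball_pos _ _ one_pos).ne' measure_ball_lt_top.ne
  refine ⟨C ^ 2 * Real.exp 5 / V, by positivity, fun v hv T y hT => ?_⟩
  have hZ : IsClosed {y | v y = 0} := isClosed_eq hv.sm.continuous continuous_const
  obtain ⟨m0, hm, hd⟩ := hZ.exists_infDist_eq_dist (PsiM.zero_ex hv) y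
  have hm : v m0 = 0 := hm
  have h1 : psi v y ≤ C * Real.exp (-dist y m0) := h v hv y _ fun w hw h0 =>
    notMem_of_dist_lt_infDist (s := {y | v y = 0}) (by rw [hd]; exact mem_ball'.1 hw) h0
  have h2 : T < dist y m0 := by
    have := hv.abs_dd_sub_le y m0
    rw [show dd v m0 = 0 by simp [dd, hm], sub_zero, ← dist_eq_norm] at this
    linarith
  set D := dist y m0 with hD
  have h3 : Real.exp (-(9 / 5 * D) - 5) * V ≤ Nw v (fun _ => 1) y := by
    have a1 : V = volume.real (ball m0 1) := by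
      rw [hV, measureReal_def, measureReal_def, Measure.addHaar_ball_center volume m0]
    rw [a1]
    refine le_trans (setIntegral_ge_of_const_le_real measurableSet_ball measure_ball_lt_top.ne
      (fun m hm' => ?_) (int_1 hv 1 y).integrableOn) (setIntegral_le_integral (int_1 hv 1 y)
        (Eventually.of_forall fun m => mul_nonneg (kE_pos _).le (by simpa using bw_nonneg m)))
    have b0 := mem_ball.1 hm'
    have b1 : |dd v m| ≤ 1 := PsiM.ball_sub hv hm hm'
    have b2 := hv.psi_le m0 m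
    rw [show psi v m0 = 1 by simp [psi, hm], dist_comm] at b2
    have b3 : Real.exp (-(3 / 2)) ≤ psi v m := by
      rw [Real.exp_neg, inv_le_iff_one_le_mul₀' (Real.exp_pos _)]
      refine b2.trans (mul_le_mul_of_nonneg_right (Real.exp_le_exp.2 ?_) (hv.psi_pos m).le)
      nlinarith [sqrt2_le, sqrt2_pos, dist_nonneg (x := m) (y := m0)]
    have b4 : ‖m - y‖ ≤ 1 + D := by
      rw [← dist_eq_norm, hD, dist_comm y]
      linarith [dist_triangle m m0 y]
    rw [bw, if_pos b1, mul_one]
    refine le_trans ?_ (mul_le_mul_of_nonneg_left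
      (pow_le_pow_left₀ (Real.exp_pos _).le b3 2) (kE_pos _).le)
    rw [kE, ← Real.exp_nat_mul, ← Real.exp_add]
    exact Real.exp_le_exp.2 (by push_cast; linarith)
  calc _ ≤ (C * Real.exp (-D)) ^ 2 := pow_le_pow_left₀ (hv.psi_pos y).le h1 2
    _ ≤ C ^ 2 * (Real.exp 5 * Real.exp (-(T / 5)) * Real.exp (-(9 / 5 * D) - 5)) := by
      rw [mul_pow, ← Real.exp_nat_mul, ← Real.exp_add, ← Real.exp_add]
      exact mul_le_mul_of_nonneg_left (Real.exp_le_exp.2 (by push_cast; linarith)) (sq_nonneg C)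
    _ = C ^ 2 * Real.exp 5 / V * Real.exp (-(T / 5)) * (Real.exp (-(9 / 5 * D) - 5) * V) := by
      field_simp
    _ ≤ _ := by gcongr

/-- Jensen -/
theorem jensen (hv : Sol v) (hz : Measurable z) (hb : ∀ m, |dd v m| ≤ 1 → |z m| ≤ A) {y : EE n}
    (hW : 0 < Nw v (fun _ => 1) y) (c : ℝ) :
    oR (Nw v (fun _ => 1) y * (c - Nw v z y / Nw v (fun _ => 1) y) ^ 2) ≤
      ∫⁻ m, oR (kE (m - y) * (bw v m * (c - z m) ^ 2)) := by
  set W := Nw v (fun _ => 1) y with hWd
  set a := Nw v z y / W with ha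
  have i1 := int_w hv hz hb y
  have i2 := int_w (A := (|c| + A) ^ 2) (z := fun m => (c - z m) ^ 2) hv
    ((hz.const_sub c).pow_const 2) (fun m hm => by
    rw [abs_pow]
    exact pow_le_pow_left₀ (abs_nonneg _) ((abs_sub _ _).trans (add_le_add_right (hb m hm) _)) 2) y
  rw [← ofReal_integral_eq_lintegral_ofReal i2 (Eventually.of_forall fun m =>
    mul_nonneg (kE_pos _).le (mul_nonneg (bw_nonneg m) (sq_nonneg _)))]
  refine ENNReal.ofReal_le_ofReal (le_trans (le_of_eq ?_) (integral_mono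
    (((int_1 hv 1 y).const_mul ((c - a) ^ 2 + 2 * (c - a) * a)).sub (i1.const_mul (2 * (c - a))))
    i2 fun m => ?_))
  · rw [integral_sub' ((int_1 hv 1 y).const_mul _) (i1.const_mul _), integral_const_mul,
      integral_const_mul]
    change _ = _ * W - _ * Nw v z y
    rw [show Nw v z y = a * W by rw [ha]; field_simp]
    ring
  · have := mul_nonneg (mul_nonneg (kE_pos (m - y)).le (bw_nonneg (v := v) m)) (sq_nonneg (a - z m))
    simp only [Pi.sub_apply]
    nlinarith

end Dp

open Dp in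
theorem deep {n : ℕ} (hn : 4 ≤ n) : DeepStmt n := by
  intro δ hδ
  obtain ⟨C, hC, hW⟩ := W_low n
  obtain ⟨K, hK, hker⟩ := ker hn
  refine ⟨max 1 (5 * (C * K / δ)), le_max_left _ _, fun T A v z hT hv hz hb hi => ?_⟩
  have T1 : 1 ≤ T := (le_max_left _ _).trans hT
  set η := C * Real.exp (-(T / 5)) with hη
  have η0 : 0 < η := by positivity
  have ηK : η * K ≤ δ := by
    have a1 : C * K / δ ≤ Real.exp (T / 5) := by
      linarith [Real.add_one_le_exp (T / 5), (le_max_right _ _).trans hT]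
    rw [div_le_iff₀ hδ] at a1
    rw [hη, Real.exp_neg, mul_right_comm, ← div_eq_mul_inv, div_le_iff₀ (Real.exp_pos _)]
    linarith
  have hb1 : ∀ m, |dd v m| ≤ 1 → |z m| ≤ A := fun m hm => by
    rw [abs_of_nonneg (hb m (hm.trans T1)).1]; exact (hb m (hm.trans T1)).2
  have W0 : ∀ y, T < |dd v y| → 0 < Nw v (fun _ => 1) y := fun y hy =>
    (mul_pos_iff_of_pos_left η0).1 ((pow_pos (hv.psi_pos y) 2).trans_le (hW v hv T y hy))
  have bz : ∀ m, 0 ≤ bw v m * z m ∧ bw v m * z m ≤ A * (bw v m * 1) := fun m => by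
    unfold bw
    split_ifs with h
    · have := hb m (h.trans T1)
      exact ⟨mul_nonneg (sq_nonneg _) this.1, by nlinarith [sq_nonneg (psi v m), this.2]⟩
    · simp
  have N0 : ∀ y, 0 ≤ Nw v z y := fun y =>
    integral_nonneg fun m => mul_nonneg (kE_pos _).le (bz m).1
  set f : EE n → ℝ := fun y => if |dd v y| ≤ T then z y else Nw v z y / Nw v (fun _ => 1) y
    with hf
  have f1 : ∀ y, |dd v y| ≤ T → f y = z y := fun y hy => if_pos hy
  have f2 : ∀ y, T < |dd v y| → f y = Nw v z y / Nw v (fun _ => 1) y := fun y hy => if_neg hy.not_ge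
  have fm : Measurable f :=
    Measurable.ite (band_meas hv T) hz ((Nw_meas hv hz).div (Nw_meas hv measurable_const))
  have f0 : ∀ y, 0 ≤ f y := fun y => by
    rcases le_or_gt |dd v y| T with h | h
    · rw [f1 y h]; exact (hb y h).1
    · rw [f2 y h]; exact div_nonneg (N0 y) (W0 y h).le
  have pm : Measurable (psi v) := hv.psi_sm.continuous.measurable
  refine ⟨f, ⟨fm, f0, fun y => ?_, ?_⟩, f1, ?_⟩
  · rcases le_or_gt |dd v y| T with h | h
    · rw [f1 y h]; exact (hb y h).2
    · rw [f2 y h, div_le_iff₀ (W0 y h), Nw, Nw, ← integral_const_mul]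
      refine integral_mono (int_w hv hz hb1 y) ((int_1 hv 1 y).const_mul A) fun m => ?_
      have := mul_le_mul_of_nonneg_left (bz m).2 (kE_pos (m - y)).le
      linarith
  · have i1 := (integrable_indicator_iff (band_meas hv T)).2 hi
    have i2 : Integrable fun m => bw v m * z m := by
      refine i1.mono' ((bw_meas hv).mul hz).aestronglyMeasurable (Eventually.of_forall fun m => ?_)
      rw [Real.norm_of_nonneg (bz m).1, bw]
      split_ifs with h
      · rw [indicator_of_mem (show m ∈ {x | |dd v x| ≤ T} from h.trans T1)]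
        exact mul_le_of_le_one_left (hb m (h.trans T1)).1 (psi2_le hv m)
      · rw [zero_mul]
        exact indicator_nonneg (fun x hx => (hb x hx).1) m
    have i3 : Integrable (Nw v z) :=
      (integrable_cv_int kE_int i2).congr (Eventually.of_forall fun y => cv_eq _ _ y)
    refine (i1.add (i3.const_mul η)).mono' ((pm.pow_const 2).mul fm).aestronglyMeasurable
      (Eventually.of_forall fun y => ?_)
    rw [Real.norm_of_nonneg (mul_nonneg (sq_nonneg _) (f0 y)), Pi.add_apply]
    rcases le_or_gt |dd v y| T with h | h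
    · rw [f1 y h, indicator_of_mem (show y ∈ {x | |dd v x| ≤ T} from h)]
      exact le_add_of_le_of_nonneg (mul_le_of_le_one_left (hb y h).1 (psi2_le hv y))
        (mul_nonneg η0.le (N0 y))
    · rw [indicator_of_notMem (show y ∉ {x | |dd v x| ≤ T} from h.not_ge), zero_add]
      refine (mul_le_mul_of_nonneg_right (hW v hv T y h) (f0 y)).trans_eq ?_
      rw [f2 y h, mul_assoc, mul_div_cancel₀ _ (W0 y h).ne']
  · rw [Ec, E0, ← lintegral_const_mul' _ _ ENNReal.ofReal_ne_top]
    refine lintegral_mono fun x => ?_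
    have key : ∀ y, ind (T < |dd v y|) * (kk v x y * oR ((f x - f y) ^ 2)) ≤
        ∫⁻ m, oR (η * psi v x ^ 2 * psi v m ^ 2 * (f x - f m) ^ 2) *
          oR (Gk 2 (y - x) * kE (m - y)) := fun y => ind_mul_le fun hy => by
      have g0 := Gk_nonneg 2 (y - x)
      calc _ ≤ oR (η * psi v x ^ 2 * Gk 2 (y - x)) * oR (Nw v (fun _ => 1) y *
              (f x - Nw v z y / Nw v (fun _ => 1) y) ^ 2) := by
            rw [kk, ← ENNReal.ofReal_mul (by positivity), ← ENNReal.ofReal_mul (by positivity),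
              ← f2 y hy]
            refine ENNReal.ofReal_le_ofReal ?_
            have := mul_le_mul_of_nonneg_left (hW v hv T y hy)
              (show 0 ≤ psi v x ^ 2 * Gk 2 (y - x) * (f x - f y) ^ 2 by positivity)
            linarith
        _ ≤ oR (η * psi v x ^ 2 * Gk 2 (y - x)) *
              ∫⁻ m, oR (kE (m - y) * (bw v m * (f x - z m) ^ 2)) :=
            mul_le_mul_right (jensen hv hz hb1 (W0 y hy) _) _
        _ ≤ _ := by
            rw [← lintegral_const_mul' _ _ ENNReal.ofReal_ne_top]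
            refine lintegral_mono fun m => ?_
            have k0 := kE_pos (m - y)
            rw [← ENNReal.ofReal_mul (by positivity), ← ENNReal.ofReal_mul (by positivity)]
            refine ENNReal.ofReal_le_ofReal ?_
            unfold bw
            split_ifs with h
            · rw [f1 m (h.trans T1)]; exact le_of_eq (by ring)
            · rw [zero_mul, mul_zero, mul_zero]; positivity
    have m1 : Measurable fun p : EE n × EE n => oR (Gk 2 (p.1 - x) * kE (p.2 - p.1)) :=
      (((measurable_Gk 2).comp (measurable_fst.sub_const x)).mul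
        (kE_cont.measurable.comp (measurable_snd.sub measurable_fst))).ennreal_ofReal
    have m2 : Measurable fun m => oR (η * psi v x ^ 2 * psi v m ^ 2 * (f x - f m) ^ 2) :=
      (((pm.pow_const 2).const_mul _).mul ((fm.const_sub _).pow_const 2)).ennreal_ofReal
    refine (lintegral_mono key).trans ?_
    rw [lintegral_lintegral_swap ((m2.comp measurable_snd).mul m1).aemeasurable,
      ← lintegral_const_mul' _ _ ENNReal.ofReal_ne_top]
    refine lintegral_mono fun m => ?_
    rw [lintegral_const_mul' _ _ ENNReal.ofReal_ne_top]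
    rcases eq_or_ne m x with rfl | hm
    · simp
    have g0 := Gk_nonneg 2 (m - x)
    refine (mul_le_mul_right (hker x m hm) _).trans ?_
    rw [kk, ← ENNReal.ofReal_mul (by positivity), ← ENNReal.ofReal_mul (by positivity),
      ← ENNReal.ofReal_mul hδ.le]
    refine ENNReal.ofReal_le_ofReal ?_
    have := mul_le_mul_of_nonneg_right ηK
      (show 0 ≤ psi v x ^ 2 * Gk 2 (m - x) * psi v m ^ 2 * (f x - f m) ^ 2 by positivity)
    linarith

end

end Crest.Agent.N067.S
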