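import Crest.Agent.N067.S.Defs
import Crest.Agent.N067.M.FlatU

/-!
# Row 67, block STAB (helper62): the leaf FAR, far pairs of the band which are not opposite
-/

set_option autoImplicit false

open MeasureTheory Laplacian InnerProductSpace Topology Filter Set Metric
open scoped RealInnerProductSpace ContDiff Gradient ENNReal NNReal

namespace Crest.Agent.N067.S

open Crest.Agent.R077 Crest.Agent.N067.Ker Crest.Agent.N067.M

noncomputable section

variable {n : ℕ}

namespace Fr

theorem rpow_le {K D : ℝ} (hK : 1 ≤ K) (hD : 0 ≤ D) :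
    (1 + D) ^ K ≤ (4 * K) ^ K * Real.exp (D / 4) := by
  have h1 : 1 + D ≤ 4 * K * Real.exp (D / (4 * K)) := by
    have h := Real.add_one_le_exp (D / (4 * K))
    have e : 4 * K * (D / (4 * K) + 1) = D + 4 * K := by field_simp
    nlinarith
  refine (Real.rpow_le_rpow (by linarith) h1 (by linarith)).trans (le_of_eq ?_)
  rw [Real.mul_rpow (by linarith) (Real.exp_pos _).le, ← Real.exp_mul]
  congr 2
  field_simp

/-- a pair with a point which is not flat is paid by `t f²` at this point -/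
theorem paid {v f : EE n → ℝ} {K T C : ℝ} (hv : Sol v) (hK : 1 ≤ K) (hC : 1 ≤ C)
    (hf : ∀ x, 0 ≤ f x) (hc : Cmp v f K T) {x y : EE n} (hx : |dd v x| ≤ T) (hy : |dd v y| ≤ T)
    {D : ℝ} (hD : 0 < D) (e : ‖y - x‖ = D) (hF : ¬ Flat v (10 * (K + C) / D) x)
    (ht : Real.exp (-(C / (10 * (K + C) / D)) - C) ≤ tt v x) :
    (f x - f y) ^ 2 ≤ (K * (4 * K) ^ K) ^ 2 * Real.exp C * Real.exp (7 / 10 * D) *
      (tt v x * f x ^ 2) := by
  have k0 : 0 < 10 * (K + C) / D := by positivity
  rw [flat_iff hv k0.le, not_le] at hF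
  have h1 : K / ph0 v x ≤ D / 20 := by
    rw [div_le_iff₀ (by linarith)]
    have e1 : D / 20 * (2 * (10 * (K + C) / D)) = K + C := by field_simp; ring
    nlinarith
  have h2 : Real.exp (-(D / 10) - C) ≤ tt v x := by
    refine le_trans (Real.exp_le_exp.2 ?_) ht
    have : C / (10 * (K + C) / D) ≤ D / 10 := by
      rw [div_le_iff₀ k0]
      have e1 : D / 10 * (10 * (K + C) / D) = K + C := by field_simp
      linarith
    linarith
  have h3 := hc y x hy hx
  rw [e] at h3
  have a1 : 1 ≤ (4 * K) ^ K := Real.one_le_rpow (by linarith) (by linarith)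
  set A := K * (4 * K) ^ K * Real.exp (3 / 10 * D) with hA
  have h4 : K * Real.exp (K / ph0 v x) * (1 + D) ^ K ≤ A := by
    have := Real.exp_le_exp.2 h1
    have := rpow_le hK hD.le
    calc _ ≤ K * Real.exp (D / 20) * ((4 * K) ^ K * Real.exp (D / 4)) := by gcongr
      _ = K * (4 * K) ^ K * (Real.exp (D / 20) * Real.exp (D / 4)) := by ring
      _ = A := by rw [← Real.exp_add, hA]; congr 2; ring
  have a2 : 1 ≤ A := one_le_mul_of_one_le_of_one_le (one_le_mul_of_one_le_of_one_le hK a1)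
    (Real.one_le_exp (by positivity))
  have h5 : f y ≤ A * f x := h3.trans (mul_le_mul_of_nonneg_right h4 (hf x))
  have h6 : f x ≤ A * f x := le_mul_of_one_le_left (hf x) a2
  have h7 : (f x - f y) ^ 2 ≤ (A * f x) ^ 2 :=
    sq_le_sq' (by linarith [hf x]) (by linarith [hf y])
  have h8 : A ^ 2 = (K * (4 * K) ^ K) ^ 2 * Real.exp C * Real.exp (7 / 10 * D) *
      Real.exp (-(D / 10) - C) := by
    rw [hA, mul_pow, sq (Real.exp _), mul_assoc, mul_assoc, ← Real.exp_add, ← Real.exp_add,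
      ← Real.exp_add]
    congr 2
    ring
  refine h7.trans ?_
  rw [mul_pow, h8, mul_assoc _ (Real.exp (-(D / 10) - C))]
  gcongr

theorem kk_le {v : EE n → ℝ} (hv : Sol v) (x y : EE n) : kk v x y ≤ oR (Gk 2 (y - x)) := by
  refine ENNReal.ofReal_le_ofReal ?_
  have h : ∀ z, psi v z ^ 2 ≤ 1 := fun z => pow_le_one₀ (hv.psi_pos z).le (psi_le_one v z)
  have := Gk_nonneg 2 (y - x)
  calc _ ≤ 1 * Gk 2 (y - x) * 1 := by gcongr <;> exact h _
    _ = _ := by ring

/-- a convolution majorant -/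
theorem lint_conv {W a : EE n → ℝ≥0∞} (hW : Measurable W) (ha : Measurable a) :
    ∫⁻ x, ∫⁻ y, W (y - x) * (a x + a y) = 2 * (∫⁻ p, W p) * ∫⁻ x, a x := by
  have e1 : ∀ x, ∫⁻ y, W (y - x) * (a x + a y) = (∫⁻ p, W p) * a x + ∫⁻ y, W (y - x) * a y := by
    intro x
    simp only [mul_add]
    rw [lintegral_add_left (by fun_prop), lintegral_mul_const _ (by fun_prop),
      lintegral_sub_right_eq_self W x]
  have e2 : ∫⁻ x, ∫⁻ y, W (y - x) * a y = (∫⁻ p, W p) * ∫⁻ x, a x := by
    rw [lintegral_lintegral_swap (by fun_prop), ← lintegral_const_mul _ ha]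
    refine lintegral_congr fun y => ?_
    rw [lintegral_mul_const _ (by fun_prop), lintegral_sub_left_eq_self W y]
  simp only [e1]
  rw [lintegral_add_left (by fun_prop), lintegral_const_mul _ ha, e2, mul_assoc, two_mul]

end Fr

theorem far (hL : LensStmt n) (hG : GeoStmt n) (hT : TL0Stmt n) : FarStmt n := by
  intro K T δ δ' hK hδ hδ'
  obtain ⟨C, hC, hT⟩ := hT
  obtain ⟨c, hc, hG⟩ := hG (10 * (K + C)) (by positivity)
  obtain ⟨L0, hL0, hG⟩ := hG T
  obtain ⟨L1, hL⟩ := hL c δ hc hδ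
  obtain ⟨κ, hκ, hU⟩ := flatU' n
  have iG := integrable_Gk_exp (n := n) (a := 1) two_pos (by norm_num)
  set I := ∫ z : EE n, Gk 2 z * Real.exp (1 * ‖z‖) with hI
  have g0 : ∀ z : EE n, 0 ≤ Gk 2 z * Real.exp (1 * ‖z‖) := fun z =>
    mul_nonneg (Gk_nonneg _ _) (Real.exp_pos _).le
  have I0 : 0 ≤ I := integral_nonneg g0
  set A := (K * (4 * K) ^ K) ^ 2 * Real.exp C with hA
  have A0 : 0 ≤ A := by positivity
  set η := δ' / (2 * (I + 1)) with hη
  have η0 : 0 < η := by positivity
  obtain ⟨L2, hL2⟩ : ∃ L2 : ℝ, ∀ D, L2 ≤ D → A * Real.exp (7 / 10 * D) ≤ η * Real.exp (1 * D) := by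
    refine ⟨10 / 3 * (A / η), fun D hD => ?_⟩
    have h1 := Real.add_one_le_exp (3 / 10 * D)
    have h2 : A ≤ η * Real.exp (3 / 10 * D) := by
      rw [← div_le_iff₀' η0]
      linarith
    calc _ ≤ η * Real.exp (3 / 10 * D) * Real.exp (7 / 10 * D) := by gcongr
      _ = _ := by rw [mul_assoc, ← Real.exp_add]; congr 2; ring
  refine ⟨max (max L0 L1) (max L2 (10 * (K + C) / κ)), lt_max_of_lt_left (lt_max_of_lt_left hL0),
    fun v f hv hs mf hf hcmp => ?_⟩
  set L := max (max L0 L1) (max L2 (10 * (K + C) / κ)) with hLd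
  have l0 : L0 ≤ L := le_max_of_le_left (le_max_left _ _)
  have l1 : L1 ≤ L := le_max_of_le_left (le_max_right _ _)
  have l2 : L2 ≤ L := le_max_of_le_right (le_max_left _ _)
  have l3 : 10 * (K + C) / κ ≤ L := le_max_of_le_right (le_max_right _ _)
  set W : EE n → ℝ≥0∞ := fun p => oR (η * (Gk 2 p * Real.exp (1 * ‖p‖))) with hW
  set a : EE n → ℝ≥0∞ := fun x => ind (|dd v x| ≤ T) * oR (tt v x * f x ^ 2) with ha
  have mG := measurable_Gk (n := n) 2
  have mW : Measurable W := by rw [hW]; fun_prop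
  have mt := hv.tt_sm.continuous.measurable
  have ma : Measurable a :=
    (measurable_ind (measurableSet_le hv.dd_sm.continuous.measurable.abs measurable_const)).mul
      (by fun_prop)
  have pay : ∀ x y z, |dd v z| ≤ T → L < dist x y → (f x - f y) ^ 2 ≤
      A * Real.exp (7 / 10 * dist x y) * (tt v z * f z ^ 2) →
      kk v x y * oR ((f x - f y) ^ 2) ≤ W (y - x) * a z := by
    intro x y z hz hD h
    have t0 : 0 ≤ tt v z * f z ^ 2 := mul_nonneg (hv.tt_nonneg z) (sq_nonneg _)
    have h2 := h.trans (mul_le_mul_of_nonneg_right (hL2 _ (l2.trans hD.le)) t0)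
    refine (mul_le_mul' (Fr.kk_le hv x y) (ENNReal.ofReal_le_ofReal h2)).trans (le_of_eq ?_)
    simp only [hW, ha, ind_of hz, one_mul]
    rw [← ENNReal.ofReal_mul (Gk_nonneg _ _), ← ENNReal.ofReal_mul (by simpa using mul_nonneg η0.le (g0 _)),
      dist_comm, dist_eq_norm]
    congr 1
    ring
  have pt : ∀ x y, ind (|dd v x| ≤ T ∧ |dd v y| ≤ T ∧ L < dist x y ∧ -1 / 8 < ⟪nn v x, nn v y⟫) *
      (kk v x y * oR ((f x - f y) ^ 2)) ≤ ind (L < dist x y ∧ Lens v c x y) *
        (kk v x y * oR ((f x - f y) ^ 2)) + W (y - x) * (a x + a y) := by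
    intro x y
    refine ind_mul_le fun ⟨hx, hy, hD, hn⟩ => ?_
    by_cases hl : Lens v c x y
    · rw [ind_of ⟨hD, hl⟩, one_mul]
      exact le_self_add
    refine le_add_left ?_
    have D0 : 0 < dist x y := (hL0.trans_le l0).trans hD
    have k0 : 0 < 10 * (K + C) / dist x y := by positivity
    have hN : ∀ z, Flat v (10 * (K + C) / dist x y) z → 1 / 2 ≤ NN v z := fun z hz =>
      hU v hv hs z fun w => (hz w).trans (mul_le_mul_of_nonneg_right (by
        rw [div_le_iff₀' D0, ← div_le_iff₀ hκ]; exact l3.trans hD.le) (sq_nonneg _))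
    by_cases fx : Flat v (10 * (K + C) / dist x y) x
    · by_cases fy : Flat v (10 * (K + C) / dist x y) y
      · exact absurd (hG v x y hv hx hy (l0.trans hD.le) (hN x fx) (hN y fy) fx fy hl) (not_le.2 hn)
      · have h := Fr.paid hv hK hC hf hcmp hy hx D0 (dist_eq_norm x y).symm fy (hT v y _ hv k0 fy)
        rw [← neg_sub, neg_sq] at h
        exact (pay x y y hy hD h).trans (mul_le_mul_right le_add_self _)
    · have h := Fr.paid hv hK hC hf hcmp hx hy D0 (by rw [dist_comm, dist_eq_norm]) fx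
        (hT v x _ hv k0 fx)
      exact (pay x y x hx hD h).trans (mul_le_mul_right le_self_add _)
  have mB : Measurable fun p : EE n × EE n => W (p.2 - p.1) * (a p.1 + a p.2) := by fun_prop
  have eW : ∫⁻ p, W p = oR (η * I) := by
    rw [hW, ← ofReal_integral_eq_lintegral_ofReal (iG.const_mul η)
      (Eventually.of_forall fun z => mul_nonneg η0.le (g0 z)), integral_const_mul]
  calc _ ≤ ∫⁻ x, ∫⁻ y, (ind (L < dist x y ∧ Lens v c x y) * (kk v x y * oR ((f x - f y) ^ 2)) +
        W (y - x) * (a x + a y)) := lintegral_mono fun x => lintegral_mono fun y => pt x y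
    _ = Ec v f (fun x y => L < dist x y ∧ Lens v c x y) + ∫⁻ x, ∫⁻ y, W (y - x) * (a x + a y) := by
        rw [Ec, ← lintegral_add_right _ mB.lintegral_prod_right']
        exact lintegral_congr fun x => lintegral_add_right _ (by fun_prop)
    _ ≤ _ := by
        refine add_le_add (hL L l1 v f hv mf) ?_
        rw [Fr.lint_conv mW ma, eW]
        refine mul_le_mul_left ?_ _
        rw [← ENNReal.ofReal_ofNat 2, ← ENNReal.ofReal_mul zero_le_two]
        refine ENNReal.ofReal_le_ofReal ?_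
        have e : 2 * (η * (I + 1)) = δ' := by rw [hη]; field_simp
        nlinarith

end

end Crest.Agent.N067.S
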