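import Crest.Agent.N067.S.Defs
import Crest.Agent.N067.M.FlatU

/-!
# Row 67, block STAB: two flat points with an empty lens are opposite (helper60)
-/

set_option autoImplicit false

open InnerProductSpace Set Metric
open scoped RealInnerProductSpace

namespace Crest.Agent.N067.S

open Crest.Agent.R077 Crest.Agent.N067.M

noncomputable section

variable {n : ℕ}

namespace Geo

theorem cone {N p : EE n} {σ : ℝ} (h0 : 0 < σ) (h1 : σ ≤ 1 / 100) (hp : ‖p‖ = 1)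
    (hN : 1 / 2 ≤ ‖N‖) (hN1 : ‖N‖ ≤ 1) (h : ∀ e, ‖e‖ ≤ 1 → σ ≤ ⟪e, p⟫ → -1 / 50 ≤ ⟪N, e⟫) :
    2 / 5 ≤ ⟪N, p⟫ ∧ ‖N - ⟪N, p⟫ • p‖ ≤ 1 / 20 := by
  have hpp : ⟪p, p⟫ = 1 := by rw [real_inner_self_eq_norm_sq, hp, one_pow]
  set a := ⟪N, p⟫ with ha
  set m := N - a • p with hm
  have hmp : ⟪m, p⟫ = 0 := by rw [hm, inner_sub_left, real_inner_smul_left, hpp, mul_one, sub_self]
  have hN' : N = m + a • p := by rw [hm, sub_add_cancel]
  have hNm : ⟪N, m⟫ = ‖m‖ ^ 2 := by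
    conv_lhs => rw [hN', inner_add_left, real_inner_smul_left, real_inner_comm m p, hmp,
      real_inner_self_eq_norm_sq, mul_zero, add_zero]
  have ha0 : -1 / 50 ≤ a := h p hp.le (by linarith)
  have ha1 : a ≤ 1 := by
    have := real_inner_le_norm N p
    rw [hp] at this
    linarith
  have hsq : ‖N‖ ^ 2 = ‖m‖ ^ 2 + a ^ 2 := by
    conv_lhs => rw [hN', norm_add_sq_real, real_inner_smul_right, hmp, norm_smul, hp,
      Real.norm_eq_abs, mul_one, sq_abs]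
    ring
  have hm1 : ‖m‖ ≤ 1 / 20 := by
    rcases (norm_nonneg m).eq_or_lt with e | e
    · rw [← e]; norm_num
    have h2 := h (σ • p - ((1 - σ) / ‖m‖) • m) ((norm_sub_le _ _).trans (by
      rw [norm_smul, norm_smul, hp, Real.norm_of_nonneg h0.le,
        Real.norm_of_nonneg (div_nonneg (by linarith) e.le), div_mul_cancel₀ _ e.ne']
      linarith)) (by
      rw [inner_sub_left, real_inner_smul_left, real_inner_smul_left, hpp, hmp]
      linarith)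
    rw [inner_sub_right, real_inner_smul_right, real_inner_smul_right, hNm, ← ha, sq, ← mul_assoc,
      div_mul_cancel₀ _ e.ne'] at h2
    nlinarith
  refine ⟨?_, hm1⟩
  by_contra hc
  push Not at hc
  nlinarith [norm_nonneg m]

theorem half {d : EE n → ℝ} {N x y : EE n} {σ K T D : ℝ} (h0 : 0 < σ) (h1 : σ ≤ 1 / 100)
    (hK0 : 0 < K) (hK : K * σ ≤ 1 / 100) (hD : D = dist x y) (hD0 : 0 < D) (hT : 100 * T ≤ σ * D)
    (hx : |d x| ≤ T) (hN : 1 / 2 ≤ ‖N‖) (hN1 : ‖N‖ ≤ 1)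
    (hf : ∀ z, |d z - d x - ⟪N, z - x⟫| ≤ K / D * ‖z - x‖ ^ 2)
    (hpos : ∀ m, dist m x ≤ (1 - σ ^ 2 / 2) * D → dist m y ≤ (1 - σ ^ 2 / 2) * D → 0 < d m) :
    2 / 5 ≤ ⟪N, D⁻¹ • (y - x)⟫ ∧ ‖N - ⟪N, D⁻¹ • (y - x)⟫ • D⁻¹ • (y - x)‖ ≤ 1 / 20 := by
  set p := D⁻¹ • (y - x) with hp
  have hp1 : ‖p‖ = 1 := by
    rw [hp, norm_smul, norm_inv, Real.norm_of_nonneg hD0.le, ← dist_eq_norm, dist_comm, ← hD,
      inv_mul_cancel₀ hD0.ne']
  have hy : y = x + D • p := by rw [hp, smul_inv_smul₀ hD0.ne', add_sub_cancel]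
  clear_value p
  refine cone h0 h1 hp1 hN hN1 fun e he hep => ?_
  have hn : ‖(σ * D) • e‖ ≤ σ * D := by
    rw [norm_smul, Real.norm_of_nonneg (by positivity)]
    exact mul_le_of_le_one_right (by positivity) he
  have h2 := hpos (x + (σ * D) • e) (by
    rw [dist_eq_norm, add_sub_cancel_left]
    refine hn.trans ?_
    gcongr
    nlinarith) (by
    have e1 : x + (σ * D) • e - y = D • (σ • e - p) := by
      rw [hy]; module
    rw [dist_eq_norm, e1, norm_smul, Real.norm_of_nonneg hD0.le, mul_comm]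
    gcongr
    refine abs_le_of_sq_le_sq' ?_ (by nlinarith) |>.2
    rw [norm_sub_sq_real, real_inner_smul_left, norm_smul, Real.norm_of_nonneg h0.le, hp1, mul_pow]
    have e2 : ‖e‖ ^ 2 ≤ 1 := pow_le_one₀ (norm_nonneg _) he
    have e3 : σ ^ 2 * ‖e‖ ^ 2 ≤ σ ^ 2 * 1 := by gcongr
    have e4 : σ * σ ≤ σ * ⟪e, p⟫ := by gcongr
    nlinarith [sq_nonneg (σ ^ 2)])
  have h3 := (abs_le.1 (hf (x + (σ * D) • e))).2
  rw [add_sub_cancel_left, real_inner_smul_right] at h3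
  have h4 : K / D * ‖(σ * D) • e‖ ^ 2 ≤ 1 / 100 * (σ * D) := by
    calc _ ≤ K / D * (σ * D) ^ 2 := by gcongr
      _ = K * σ * (σ * D) := by field_simp
      _ ≤ _ := by gcongr
  have h5 := (abs_le.1 hx).2
  refine le_of_mul_le_mul_left ?_ (mul_pos h0 hD0)
  linarith

theorem opp {d : EE n → ℝ} {N N' x y : EE n} {σ K T : ℝ} (h0 : 0 < σ) (h1 : σ ≤ 1 / 100)
    (hK0 : 0 < K) (hK : K * σ ≤ 1 / 100) (hD0 : 0 < dist x y) (hT : 100 * T ≤ σ * dist x y)
    (hx : |d x| ≤ T) (hy : |d y| ≤ T) (hN : 1 / 2 ≤ ‖N‖) (hN1 : ‖N‖ ≤ 1) (hN' : 1 / 2 ≤ ‖N'‖)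
    (hN1' : ‖N'‖ ≤ 1) (hf : ∀ z, |d z - d x - ⟪N, z - x⟫| ≤ K / dist x y * ‖z - x‖ ^ 2)
    (hf' : ∀ z, |d z - d y - ⟪N', z - y⟫| ≤ K / dist x y * ‖z - y‖ ^ 2)
    (hpos : ∀ m, dist m x ≤ (1 - σ ^ 2 / 2) * dist x y → dist m y ≤ (1 - σ ^ 2 / 2) * dist x y →
      0 < d m) : ⟪N, N'⟫ ≤ -1 / 8 := by
  obtain ⟨a1, a2⟩ := half h0 h1 hK0 hK rfl hD0 hT hx hN hN1 hf hpos
  obtain ⟨b1, b2⟩ := half h0 h1 hK0 hK (dist_comm x y) hD0 hT hy hN' hN1' hf' fun m h h' =>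
    hpos m h' h
  rw [← neg_sub y x, smul_neg, inner_neg_right] at b1 b2
  set p := (dist x y)⁻¹ • (y - x) with hp
  have hp1 : ⟪p, p⟫ = 1 := by
    rw [real_inner_self_eq_norm_sq, hp, norm_smul, norm_inv, Real.norm_of_nonneg hD0.le,
      ← dist_eq_norm, dist_comm y, inv_mul_cancel₀ hD0.ne', one_pow]
  clear_value p
  rw [smul_neg, neg_smul, neg_neg] at b2
  have h2 := real_inner_le_norm (N - ⟪N, p⟫ • p) (N' - ⟪N', p⟫ • p)
  rw [inner_sub_left, inner_sub_right, inner_sub_right, real_inner_smul_left, real_inner_smul_left,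
    real_inner_smul_right, real_inner_smul_right, hp1, real_inner_comm N' p] at h2
  have h3 : ‖N - ⟪N, p⟫ • p‖ * ‖N' - ⟪N', p⟫ • p‖ ≤ 1 / 20 * (1 / 20) := by gcongr
  have h4 : 2 / 5 * (2 / 5) ≤ ⟪N, p⟫ * -⟪N', p⟫ := by gcongr
  nlinarith

end Geo

theorem geo (n : ℕ) : GeoStmt n := by
  intro K hK
  set σ : ℝ := min (1 / 100) (1 / (100 * K)) with hσ
  have h0 : 0 < σ := lt_min (by norm_num) (by positivity)
  have h1 : σ ≤ 1 / 100 := min_le_left _ _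
  have h2 : K * σ ≤ 1 / 100 := by
    calc K * σ ≤ K * (1 / (100 * K)) := by gcongr; exact min_le_right _ _
      _ = _ := by field_simp
  refine ⟨σ ^ 2 / 2, by positivity, fun T => ⟨100 * |T| / σ + 1, by positivity, ?_⟩⟩
  intro v x y hv hx hy hD hN hN' hf hf' hL
  have hD0 : 0 < dist x y := lt_of_lt_of_le (by positivity) hD
  have hT : 100 * T ≤ σ * dist x y := by
    have : 100 * |T| / σ ≤ dist x y := by linarith
    rw [div_le_iff₀ h0] at this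
    linarith [le_abs_self T]
  set S := closedBall x ((1 - σ ^ 2 / 2) * dist x y) ∩ closedBall y ((1 - σ ^ 2 / 2) * dist x y)
  have hS : IsPreconnected S := ((convex_closedBall _ _).inter (convex_closedBall _ _)).isPreconnected
  have hne : ∀ m ∈ S, v m ≠ 0 := fun m hm e => hL ⟨m, e, hm.1, hm.2⟩
  by_cases hp : ∀ m ∈ S, 0 < v m
  · exact Geo.opp h0 h1 hK h2 hD0 hT hx hy hN (NN_le_one hv x) hN' (NN_le_one hv y) hf hf'
      fun m h h' => hv.dd_pos (hp m ⟨h, h'⟩)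
  · push Not at hp
    obtain ⟨m0, hm0, hv0⟩ := hp
    have hn : ∀ m ∈ S, 0 < ng v m := fun m hm => by
      refine neg_pos.2 (lt_of_not_ge fun h => ?_)
      obtain ⟨z, hz, e⟩ := hS.intermediate_value hm0 hm hv.sm.continuous.continuousOn ⟨hv0, h⟩
      exact hne z hz e
    have key : ∀ w κ, Flat v κ w → ∀ z,
        |-dd v z - -dd v w - ⟪-nn v w, z - w⟫| ≤ κ * ‖z - w‖ ^ 2 := fun w κ h z => by
      rw [inner_neg_left, ← abs_neg]
      convert h z using 2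
      rw [nn]
      ring
    have := Geo.opp (d := fun z => -dd v z) (N := -nn v x) (N' := -nn v y) h0 h1 hK h2 hD0 hT
      (by rwa [abs_neg]) (by rwa [abs_neg]) (by rwa [norm_neg]) (by rw [norm_neg]; exact NN_le_one hv x)
      (by rwa [norm_neg]) (by rw [norm_neg]; exact NN_le_one hv y) (key x _ hf) (key y _ hf')
      fun m h h' => by
        have := (sol_ng hv).dd_pos (hn m ⟨h, h'⟩)
        rwa [dd_ng hv] at this
    rwa [inner_neg_neg] at this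

end

end Crest.Agent.N067.S
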