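import Crest.Agent.N067.S.Defs

/-! # Row 67, block STAB, leaf LENS: far pairs with a zero in the lens -/

set_option autoImplicit false

open MeasureTheory Laplacian InnerProductSpace Topology Filter Set Metric
open scoped RealInnerProductSpace ContDiff Gradient ENNReal NNReal

namespace Crest.Agent.N067.S

open Crest.Agent.R077 Crest.Agent.N067.Ker Crest.Agent.N067.M

noncomputable section

variable {n : ℕ}

namespace Ls

theorem int_exp {a : ℝ} (ha : 0 < a) : Integrable fun z : EE n => Real.exp (-(a * ‖z‖)) := by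
  have h : Integrable fun z : EE n => Real.exp (-‖z‖) := by
    refine ((integrable_one_add_norm (E := EE n) (μ := volume) (r := ((n + 1 : ℕ) : ℝ))
      (by simp)).const_mul (((n + 1).factorial : ℝ) * Real.exp 1)).mono' (by fun_prop)
      (Eventually.of_forall fun z => ?_)
    have h1 := Real.pow_div_factorial_le_exp (1 + ‖z‖) (by positivity) (n + 1)
    rw [Real.norm_of_nonneg (Real.exp_pos _).le, Real.rpow_neg (by positivity), Real.rpow_natCast,
      Real.exp_neg, ← div_eq_mul_inv, le_div_iff₀ (by positivity), inv_mul_le_iff₀ (Real.exp_pos _)]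
    rw [div_le_iff₀ (by positivity), Real.exp_add] at h1
    linarith
  simpa [norm_smul, abs_of_pos ha] using h.comp_smul ha.ne'

theorem psi_ge {v : EE n → ℝ} (h : Sol v) {m m' : EE n} (hm : v m = 0) (h' : m' ∈ ball m (1 / 2)) :
    9 / 16 ≤ psi v m' ^ 2 := by
  have a1 := Convex.norm_image_sub_le_of_norm_fderiv_le (𝕜 := ℝ) (C := 1) (f := v)
    (fun y _ => h.diff y) (fun y _ => by
      rw [← norm_grad, h.grad_v, norm_smul, Real.norm_of_nonneg (div_nonneg (h.psi_pos y).le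
        sqrt2_pos.le)]
      exact mul_le_one₀ (div_le_one_of_le₀ ((psi_le_one v y).trans (Real.one_le_sqrt.2 one_le_two))
        sqrt2_pos.le) (norm_nonneg _) (h.norm_grad_dd_le y)) convex_univ (mem_univ m) (mem_univ m')
  rw [hm, sub_zero, Real.norm_eq_abs] at a1
  have a2 := mem_ball_iff_norm.1 h'
  have : v m' ^ 2 ≤ 1 / 4 := by nlinarith [sq_abs (v m'), abs_nonneg (v m')]
  unfold psi; nlinarith

/-- one half of the pointwise bound -/
theorem half (hn : 2 ≤ n) {v : EE n → ℝ} (h : Sol v) {c s : ℝ} {x y m m' : EE n}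
    (hD : 1 ≤ c * ‖y - x‖) (hm : v m = 0) (hx : dist m x ≤ (1 - c) * ‖y - x‖)
    (h' : m' ∈ ball m (1 / 2)) (hne : m' ≠ x) (hs : 0 ≤ s) :
    psi v x ^ 2 * Gk 2 (y - x) * psi v y ^ 2 * (2 * s) ≤
      4 * Real.exp (-(c / 2 * ‖y - x‖)) * (psi v x ^ 2 * Gk 2 (m' - x) * psi v m' ^ 2 * s) := by
  have h1 : ‖m' - x‖ ≤ (1 - c / 2) * ‖y - x‖ := by
    rw [← dist_eq_norm]; linarith [dist_triangle m' m x, mem_ball.1 h']
  have h2 := Gk_le_exp hn two_pos (sub_ne_zero.2 hne) (z := y - x) (by linarith)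
  have h3 : Real.exp (-√2 * (‖y - x‖ - ‖m' - x‖)) ≤ Real.exp (-(c / 2 * ‖y - x‖)) :=
    Real.exp_le_exp.2 (by nlinarith [Real.one_le_sqrt.2 (one_le_two (α := ℝ))])
  have h4 : psi v y ^ 2 ≤ 1 := pow_le_one₀ (h.psi_pos y).le (psi_le_one v y)
  have h5 := psi_ge h hm h'
  have h6 := Gk_nonneg 2 (m' - x)
  have h7 := Gk_nonneg 2 (y - x)
  calc _ ≤ psi v x ^ 2 * (Real.exp (-(c / 2 * ‖y - x‖)) * Gk 2 (m' - x)) * (2 * psi v m' ^ 2) *
        (2 * s) := by
        gcongr
        · exact h2.trans (by gcongr)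
        · linarith
    _ = _ := by ring

end Ls

open Ls in
theorem lens (hn : 2 ≤ n) : LensStmt n := fun c δ hc hδ => by
  have : NeZero n := ⟨by omega⟩
  set V := volume (ball (0 : EE n) (1 / 2)) with hV
  have V0 : V ≠ 0 := (measure_ball_pos _ _ (by norm_num)).ne'
  have V1 : V ≠ ⊤ := measure_ball_lt_top.ne
  set I := ∫⁻ p : EE n, oR (Real.exp (-(c / 4 * ‖p‖))) with hI
  have I1 : I ≠ ⊤ := (int_exp (by positivity)).lintegral_lt_top.ne
  set K := (V⁻¹ * (2 * I)).toReal with hK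
  have K0 : 0 ≤ K := ENNReal.toReal_nonneg
  refine ⟨max (1 / c) (16 * K / (c * δ)), fun L hL v f h hf => ?_⟩
  have L1 : 1 ≤ c * L := by rw [mul_comm, ← div_le_iff₀ hc]; exact (le_max_left _ _).trans hL
  have L2 : 16 * K ≤ L * (c * δ) := (div_le_iff₀ (by positivity)).1 ((le_max_right _ _).trans hL)
  have mψ := h.psi_sm.continuous.measurable
  have mG := measurable_Gk (n := n) 2
  set F : EE n → ℝ≥0∞ := fun x => ∫⁻ m, kk v x m * oR ((f x - f m) ^ 2) with hF
  have m2 : Measurable fun p : EE n × EE n => kk v p.1 p.2 * oR ((f p.1 - f p.2) ^ 2) := by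
    unfold kk; fun_prop
  have mF : Measurable F := m2.lintegral_prod_right'
  have m3 : Measurable fun p : EE n × EE n => oR (Real.exp (-(c / 4 * ‖p.2 - p.1‖))) := by fun_prop
  have k0 : ∀ x y, 0 ≤ psi v x ^ 2 * Gk 2 (y - x) * psi v y ^ 2 := fun x y =>
    mul_nonneg (mul_nonneg (sq_nonneg _) (Gk_nonneg _ _)) (sq_nonneg _)
  have key : ∀ x y, ind (L < dist x y ∧ Lens v c x y) * (kk v x y * oR ((f x - f y) ^ 2)) ≤
      V⁻¹ * oR (4 * Real.exp (-(c / 4 * L))) *
        (oR (Real.exp (-(c / 4 * ‖y - x‖))) * F x + oR (Real.exp (-(c / 4 * ‖y - x‖))) * F y) :=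
    fun x y => ind_mul_le fun ⟨hD, m, hm, m1, m2'⟩ => by
    rw [dist_comm x y, dist_eq_norm y x] at hD m1 m2'
    have hD' : 1 ≤ c * ‖y - x‖ := L1.trans (by gcongr)
    rw [mul_assoc, ← mul_add, ← mul_assoc (oR _), ← ENNReal.ofReal_mul (by positivity),
      ← ENNReal.mul_le_mul_iff_right V0 V1, ENNReal.mul_inv_cancel_left V0 V1, hV,
      ← Measure.addHaar_ball_center volume m, mul_comm, ← setLIntegral_const, hF,
      ← lintegral_add_left (f := fun m => kk v x m * oR ((f x - f m) ^ 2)) (by unfold kk; fun_prop),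
      ← lintegral_const_mul' _ _ ENNReal.ofReal_ne_top]
    refine le_trans (setLIntegral_mono_ae' measurableSet_ball ?_) (setLIntegral_le_lintegral _ _)
    filter_upwards [compl_mem_ae_iff.2 (measure_singleton x),
      compl_mem_ae_iff.2 (measure_singleton y)] with m' n1 n2 hm'
    have a1 := half hn h hD' hm m1 hm' n1 (sq_nonneg (f x - f m'))
    have a2 := half hn h (x := y) (y := x) (c := c) (by rwa [norm_sub_rev]) hm (by rwa [norm_sub_rev]) hm' n2
      (sq_nonneg (f y - f m'))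
    rw [Gk_sub_comm 2 x y, norm_sub_rev x y] at a2
    have a3 : Real.exp (-(c / 2 * ‖y - x‖)) ≤
        Real.exp (-(c / 4 * L)) * Real.exp (-(c / 4 * ‖y - x‖)) := by
      rw [← Real.exp_add]; exact Real.exp_le_exp.2 (by nlinarith)
    have a4 := mul_le_mul_of_nonneg_left (show (f x - f y) ^ 2 ≤ 2 * (f x - f m') ^ 2 +
      2 * (f y - f m') ^ 2 by nlinarith [sq_nonneg (f x + f y - 2 * f m')]) (k0 x y)
    have b1 := mul_nonneg (k0 x m') (sq_nonneg (f x - f m'))
    have b2 := mul_nonneg (k0 y m') (sq_nonneg (f y - f m'))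
    simp only [kk]
    rw [← ENNReal.ofReal_mul (k0 _ _), ← ENNReal.ofReal_mul (k0 _ _), ← ENNReal.ofReal_mul (k0 _ _),
      ← ENNReal.ofReal_add b1 b2, ← ENNReal.ofReal_mul (by positivity)]
    refine ENNReal.ofReal_le_ofReal ?_
    nlinarith [mul_le_mul_of_nonneg_right a3 (add_nonneg b1 b2)]
  have e1 : ∫⁻ x, ∫⁻ y, oR (Real.exp (-(c / 4 * ‖y - x‖))) * F x = I * E0 v f := by
    rw [E0, ← lintegral_const_mul _ mF]
    refine lintegral_congr fun x => ?_
    rw [lintegral_mul_const _ (by fun_prop),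
      lintegral_sub_right_eq_self (fun p : EE n => oR (Real.exp (-(c / 4 * ‖p‖)))) x]
  have e2 : ∫⁻ x, ∫⁻ y, oR (Real.exp (-(c / 4 * ‖y - x‖))) * F y = I * E0 v f := by
    rw [lintegral_lintegral_swap (m3.mul (mF.comp measurable_snd)).aemeasurable, ← e1]
    simp only [norm_sub_rev]
  have c1 : V⁻¹ * oR (4 * Real.exp (-(c / 4 * L))) ≠ ⊤ :=
    ENNReal.mul_ne_top (ENNReal.inv_ne_top.2 V0) ENNReal.ofReal_ne_top
  refine (lintegral_mono fun x => lintegral_mono fun y => key x y).trans ?_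
  simp_rw [lintegral_const_mul' _ _ c1, fun x => lintegral_add_left (μ := volume)
    (show Measurable fun y => oR (Real.exp (-(c / 4 * ‖y - x‖))) * F x by fun_prop)]
  rw [lintegral_add_left (f := fun x => ∫⁻ y, oR (Real.exp (-(c / 4 * ‖y - x‖))) * F x)
    (Measurable.lintegral_prod_right (by fun_prop)), e1, e2, ← two_mul,
    ← mul_assoc 2, ← mul_assoc, mul_right_comm V⁻¹, ← ENNReal.ofReal_toReal (ENNReal.mul_ne_top
      (ENNReal.inv_ne_top.2 V0) (ENNReal.mul_ne_top ENNReal.ofNat_ne_top I1)), ← hK,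
    ← ENNReal.ofReal_mul K0]
  refine mul_le_mul_left (ENNReal.ofReal_le_ofReal ?_) _
  rw [Real.exp_neg, ← mul_assoc, ← div_eq_mul_inv, div_le_iff₀ (Real.exp_pos _)]
  nlinarith [Real.add_one_le_exp (c / 4 * L)]

end

end Crest.Agent.N067.S
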