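import Crest.Agent.N067.S.Defs
import Crest.Agent.N067.A.PS

/-! Row 67, block STAB (helper2): `PSStmt`. -/

set_option autoImplicit false

namespace Crest.Agent.N067.S

theorem psS (n : ℕ) : PSStmt n := fun _ _ _ _ _ h hi hb hf =>
  Ker.ps_lint two_pos hi (fun x => (h x).1) (fun x => (h x).2) hf hb

end Crest.Agent.N067.S
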