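import Crest.Agent.N067.S.Ret
import Crest.Agent.N067.S.PS

/-!
# Row 67, block STAB (helper41): the parallel sum inequality on a ball
-/

set_option autoImplicit false

open MeasureTheory Laplacian InnerProductSpace Topology Filter Set Metric
open scoped RealInnerProductSpace ContDiff Gradient ENNReal NNReal

namespace Crest.Agent.N067.S

open Crest.Agent.R077 Crest.Agent.N067.Ker

noncomputable section

variable {n : ℕ}

/-- decay of `G s` along the retraction -/
theorem res_le_exp (hn : 2 ≤ n) {s : EE n → ℝ} {A δ : ℝ} (hs : Measurable s)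
    (h0 : ∀ x, 0 ≤ s x ∧ s x ≤ A) {x w : EE n} (hδ : 0 ≤ δ)
    (h : ∀ y, s y ≠ 0 → ‖w - y‖ + δ ≤ ‖x - y‖) :
    res 2 s x ≤ Real.exp (-(√2 * δ)) * res 2 s w := by
  have : Nontrivial (EE n) := Module.nontrivial_of_finrank_pos (R := ℝ) (by simp; omega)
  have hi : ∀ a : EE n, Integrable fun y => Gk 2 (a - y) * s y := fun a =>
    ((integrable_Gk two_pos).comp_sub_left a).mul_bdd (c := A) hs.aestronglyMeasurable
      (Eventually.of_forall fun y => by rw [Real.norm_of_nonneg (h0 y).1]; exact (h0 y).2)
  rw [res_eq, res_eq, ← integral_const_mul]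
  refine integral_mono_ae (hi x) ((hi w).const_mul _) ?_
  filter_upwards [compl_mem_ae_iff.2 (measure_singleton (μ := volume) w)] with y hy
  rcases eq_or_ne (s y) 0 with h1 | h1
  · simp [h1]
  have h2 := h y h1
  rw [← mul_assoc]
  refine mul_le_mul_of_nonneg_right ((Gk_le_exp hn two_pos (y := w - y)
    (sub_ne_zero.2 (Ne.symm hy)) (by linarith)).trans ?_) (h0 y).1
  refine mul_le_mul_of_nonneg_right (Real.exp_le_exp.2 ?_) (Gk_nonneg _ _)
  nlinarith [Real.sqrt_nonneg 2]

theorem loc (hn : 2 ≤ n) : LocStmt n := by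
  intro e l he hl
  obtain ⟨l', R, hl', hR, hRd, hid, hlt, hgeo, hle, hint⟩ := ret n e l he hl
  refine ⟨l', hl', fun c s z A K hs h0 hsupp hz => ?_⟩
  obtain ⟨g, hg, hzg⟩ := hz.extend_real
  set f : EE n → ℝ := fun w => g (c + R (w - c)) with hf
  have hT : LipschitzWith 1 fun w : EE n => c + R (w - c) := LipschitzWith.of_dist_le_mul
    fun x y => by simpa [dist_eq_norm] using hR.dist_le_mul (x - c) (y - c)
  have hfb : ∀ x, |f x| ≤ |g c| + K * l' := fun x => by
    have h1 := hg.dist_le_mul (c + R (x - c)) c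
    rw [Real.dist_eq, dist_eq_norm, add_sub_cancel_left] at h1
    have h2 := mul_le_mul_of_nonneg_left (hlt (x - c)).le K.coe_nonneg
    have h3 := abs_sub_abs_le_abs_sub (g (c + R (x - c))) (g c)
    simp only [hf]
    linarith
  have hsi : Integrable s := by
    refine (integrableOn_iff_integrable_of_support_subset (s := ball c l) fun x hx => ?_).1 ?_
    · exact not_le.1 fun h => hx (hsupp x h)
    · exact Measure.integrableOn_of_bounded (M := A) measure_ball_lt_top.ne
        hs.aestronglyMeasurable (Eventually.of_forall fun y => by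
          rw [Real.norm_of_nonneg (h0 y).1]; exact (h0 y).2)
  have key := psS n s f (max A (|g c| + K * l')) (K * 1) hs
    (fun x => ⟨(h0 x).1, (h0 x).2.trans (le_max_left _ _)⟩) hsi
    (fun x => (hfb x).trans (le_max_right _ _)) (hg.comp hT)
  have hfz : ∀ x, s x ≠ 0 → z x = f x := fun x hx => by
    have h1 : dist x c < l := not_le.1 fun h => hx (hsupp x h)
    simp only [hf]
    rw [hid _ (by rw [← dist_eq_norm]; exact h1.le), add_sub_cancel]
    exact hzg (h1.trans_le hl')
  have e1 : ∀ x y, s x * Gk 2 (y - x) * s y * (z x - z y) ^ 2 =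
      s x * Gk 2 (y - x) * s y * (f x - f y) ^ 2 := fun x y => by
    rcases eq_or_ne (s x) 0 with h1 | h1
    · simp [h1]
    rcases eq_or_ne (s y) 0 with h2 | h2
    · simp [h2]
    rw [hfz x h1, hfz y h2]
  simp only [e1]
  refine key.trans ?_
  rw [show oR (2 * (1 + e)) = 2 * oR (1 + e) by
    rw [oR, ENNReal.ofReal_mul zero_le_two, ENNReal.ofReal_ofNat], mul_assoc]
  refine mul_le_mul_right ?_ _
  classical
  set H : EE n → ℝ≥0∞ := fun w =>
    if DifferentiableAt ℝ g w then oR (res 2 s w ^ 2 * gsq g w) else ⊤ with hH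
  have e2 : ∫⁻ q in ball 0 l', H (c + q) = ∫⁻ x in ball c l', oR (res 2 s x ^ 2 * gsq z x) := by
    rw [← lintegral_indicator measurableSet_ball, ← lintegral_indicator measurableSet_ball,
      ← lintegral_add_left_eq_self ((ball c l').indicator _) c]
    refine lintegral_congr_ae ?_
    filter_upwards [(measurePreserving_add_left volume c).quasiMeasurePreserving.ae
      (hg.ae_differentiableAt (μ := volume))] with q hq
    by_cases h1 : q ∈ ball (0 : EE n) l'
    · have h2 : c + q ∈ ball c l' := by simpa [dist_eq_norm] using h1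
      rw [indicator_of_mem h1, indicator_of_mem h2, hH]
      simp only [if_pos hq]
      rw [gsq_eq, gsq_eq, (hzg.eventuallyEq_of_mem (isOpen_ball.mem_nhds h2)).gradient_eq]
    · have h2 : c + q ∉ ball c l' := by simpa [dist_eq_norm] using h1
      rw [indicator_of_notMem h1, indicator_of_notMem h2]
  rw [← e2, ← lintegral_add_left_eq_self _ c]
  refine le_trans (lintegral_mono_ae ?_) (hint fun q => H (c + q))
  filter_upwards [hRd] with p hp
  by_cases h1 : DifferentiableAt ℝ g (c + R p)
  swap
  · simp only [hH, if_neg h1]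
    rw [ENNReal.mul_top (ENNReal.ofReal_pos.2 (Real.exp_pos _)).ne']
    exact le_top
  simp only [hH, if_pos h1]
  rw [oR, oR, oR, ← ENNReal.ofReal_mul (Real.exp_pos _).le, ← mul_assoc]
  refine ENNReal.ofReal_le_ofReal (mul_le_mul ?_ ?_ (gsq_nonneg _ _) (by positivity))
  · have h2 := res_le_exp hn hs h0 (x := c + p) (w := c + R p) (δ := (‖p‖ - ‖R p‖) / 2)
      (by linarith [hle p]) fun y hy => by
        have h3 : dist y c < l := not_le.1 fun h => hy (hsupp y h)
        have := hgeo p (y - c) (by rw [← dist_eq_norm]; exact h3.le)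
        rwa [show R p - (y - c) = c + R p - y by abel, show p - (y - c) = c + p - y by abel] at this
    refine (pow_le_pow_left₀ (res_nonneg 2 (fun x => (h0 x).1) _) h2 2).trans (le_of_eq ?_)
    rw [mul_pow, ← Real.exp_nat_mul]
    congr 2
    push_cast
    ring
  · have d1 : DifferentiableAt ℝ (fun w : EE n => c + R (w - c)) (c + p) := by
      refine (DifferentiableAt.comp (g := R) (f := fun w => w - c) _ ?_ (by fun_prop)).const_add c
      rwa [add_sub_cancel_left]
    have d2 : DifferentiableAt ℝ g (c + R (c + p - c)) := by rwa [add_sub_cancel_left]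
    rw [gsq_eq, gsq_eq, St.norm_grad, St.norm_grad]
    refine pow_le_pow_left₀ (norm_nonneg _) ?_ 2
    have e3 := fderiv_comp (c + p) d2 d1
    rw [add_sub_cancel_left] at e3
    rw [show f = g ∘ fun w : EE n => c + R (w - c) from rfl, e3]
    exact (ContinuousLinearMap.opNorm_comp_le _ _).trans (mul_le_of_le_one_right (norm_nonneg _)
      (by simpa using norm_fderiv_le_of_lipschitz ℝ hT))

end

end Crest.Agent.N067.S
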