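import Crest.Agent.N067.S.Defs

/-!
# Row 67, block STAB (helper62): the leaf NEAR from LOC, average over the centres of the balls
-/

set_option autoImplicit false

open MeasureTheory Laplacian InnerProductSpace Topology Filter Set Metric
open scoped RealInnerProductSpace ContDiff Gradient ENNReal NNReal

namespace Crest.Agent.N067.S

open Crest.Agent.R077 Crest.Agent.N067.Ker Crest.Agent.N067.M

noncomputable section

variable {n : ℕ} {v : EE n → ℝ}

namespace Nr

theorem SS_mem (hv : Sol v) (x : EE n) : 0 ≤ SS v x ∧ SS v x ≤ 3 := by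
  have h1 : psi v x ^ 2 ≤ 1 := pow_le_one₀ (hv.psi_pos x).le (psi_le_one v x)
  have := tt_le_one v x
  have := hv.tt_nonneg x
  unfold SS
  exact ⟨mul_nonneg (sq_nonneg _) (by linarith), by nlinarith [sq_nonneg (psi v x)]⟩

theorem measurable_SS (hv : Sol v) : Measurable (SS v) :=
  (hv.psi_sm.continuous.measurable.pow_const 2).mul
    (measurable_const.sub hv.tt_sm.continuous.measurable)

theorem oR_res {s : EE n → ℝ} {A : ℝ} (hs : Measurable s) (h : ∀ x, 0 ≤ s x ∧ s x ≤ A) (x : EE n) :
    oR (res 2 s x) = ∫⁻ y, oR (Gk 2 (y - x) * s y) := by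
  rw [res, cv_eq]
  exact ofReal_integral_eq_lintegral_ofReal
    (((integrable_Gk two_pos).comp_sub_right x).mul_bdd (c := A) hs.aestronglyMeasurable
      (Eventually.of_forall fun y => by rw [Real.norm_eq_abs, abs_of_nonneg (h y).1]; exact (h y).2))
    (Eventually.of_forall fun y => mul_nonneg (Gk_nonneg _ _) (h y).1)

theorem lint_SS (hv : Sol v) (x : EE n) : ∫⁻ y, oR (Gk 2 (y - x) * SS v y) = oR (psi v x) := by
  rw [← oR_res (measurable_SS hv) (SS_mem hv), psi_eq_res hv]
  rfl

open Classical in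
/-- the source `S` cut to the band and to a ball -/
def sc (v : EE n → ℝ) (T l : ℝ) (c x : EE n) : ℝ :=
  if |dd v x| ≤ T ∧ dist x c < l then SS v x else 0

variable {T l : ℝ}

theorem sc_mem (hv : Sol v) (c x : EE n) : 0 ≤ sc v T l c x ∧ sc v T l c x ≤ SS v x := by
  unfold sc
  split_ifs
  · exact ⟨(SS_mem hv x).1, le_rfl⟩
  · exact ⟨le_rfl, (SS_mem hv x).1⟩

theorem measurable_sc (hv : Sol v) {α : Type*} [MeasurableSpace α] {c x : α → EE n}
    (hc : Measurable c) (hx : Measurable x) : Measurable fun a => sc v T l (c a) (x a) :=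
  Measurable.ite ((measurableSet_le (hv.dd_sm.continuous.measurable.comp hx).abs
    measurable_const).inter (measurableSet_lt (hx.dist hc) measurable_const))
    ((measurable_SS hv).comp hx) measurable_const

theorem lint_sc (hv : Sol v) (x y : EE n) :
    ∫⁻ c, oR (Gk 2 (y - x) * sc v T l c y) ≤
      oR (Gk 2 (y - x) * SS v y) * volume (ball (0 : EE n) l) := by
  rw [← Measure.addHaar_ball_center volume y, ← lintegral_indicator_const measurableSet_ball]
  refine lintegral_mono fun c => ?_
  by_cases h : c ∈ ball y l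
  · rw [indicator_of_mem h]
    exact ENNReal.ofReal_le_ofReal
      (mul_le_mul_of_nonneg_left (sc_mem hv c y).2 (Gk_nonneg _ _))
  · rw [sc, if_neg fun h' => h (mem_ball'.2 h'.2)]
    simp

/-- the average over the centres of the squared potentials -/
theorem avg_res (hv : Sol v) {g : EE n → ℝ} (hg : Measurable g) (h0 : ∀ x, 0 ≤ g x)
    (U : Set (EE n)) : ∫⁻ c, ∫⁻ x in U, oR (res 2 (sc v T l c) x ^ 2 * g x) ≤
      volume (ball (0 : EE n) l) * ∫⁻ x in U, oR (psi v x ^ 2 * g x) := by
  have mG := measurable_Gk (n := n) 2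
  have mp := hv.psi_sm.continuous.measurable
  have e : ∀ c x, oR (res 2 (sc v T l c) x) = ∫⁻ y, oR (Gk 2 (y - x) * sc v T l c y) := fun c x =>
    oR_res (measurable_sc hv measurable_const measurable_id)
      (fun y => ⟨(sc_mem hv c y).1, (sc_mem hv c y).2.trans (SS_mem hv y).2⟩) x
  have h1 : ∀ c x, oR (res 2 (sc v T l c) x ^ 2 * g x) ≤
      oR (psi v x * g x) * ∫⁻ y, oR (Gk 2 (y - x) * sc v T l c y) := by
    intro c x
    have r0 : 0 ≤ res 2 (sc v T l c) x := res_nonneg 2 (fun y => (sc_mem hv c y).1) x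
    have r1 : res 2 (sc v T l c) x ≤ psi v x := by
      rw [← ENNReal.ofReal_le_ofReal_iff (hv.psi_pos x).le, ← oR, e, ← oR, ← lint_SS hv]
      exact lintegral_mono fun y => ENNReal.ofReal_le_ofReal
        (mul_le_mul_of_nonneg_left (sc_mem hv c y).2 (Gk_nonneg _ _))
    rw [← e, ← ENNReal.ofReal_mul (mul_nonneg (hv.psi_pos x).le (h0 x))]
    refine ENNReal.ofReal_le_ofReal ?_
    nlinarith [mul_le_mul_of_nonneg_right r1 (mul_nonneg r0 (h0 x))]
  have m3 : Measurable fun p : (EE n × EE n) × EE n =>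
      oR (Gk 2 (p.2 - p.1.2) * sc v T l p.1.1 p.2) :=
    ((mG.comp (by fun_prop)).mul (measurable_sc hv (by fun_prop) measurable_snd)).ennreal_ofReal
  calc _ ≤ ∫⁻ c, ∫⁻ x in U, oR (psi v x * g x) * ∫⁻ y, oR (Gk 2 (y - x) * sc v T l c y) :=
        lintegral_mono fun c => lintegral_mono fun x => h1 c x
    _ = ∫⁻ x in U, ∫⁻ c, oR (psi v x * g x) * ∫⁻ y, oR (Gk 2 (y - x) * sc v T l c y) :=
        lintegral_lintegral_swap (Measurable.mul (by fun_prop) m3.lintegral_prod_right').aemeasurable
    _ ≤ ∫⁻ x in U, volume (ball (0 : EE n) l) * oR (psi v x ^ 2 * g x) := by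
        refine lintegral_mono fun x => ?_
        rw [lintegral_const_mul' _ _ ENNReal.ofReal_ne_top, lintegral_lintegral_swap
          (((mG.comp (by fun_prop)).mul
            (measurable_sc hv measurable_fst measurable_snd)).ennreal_ofReal).aemeasurable]
        refine (mul_le_mul_right (lintegral_mono fun y => lint_sc hv x y) _).trans (le_of_eq ?_)
        rw [lintegral_mul_const' _ _ measure_ball_lt_top.ne, lint_SS hv, ← mul_assoc,
          ← ENNReal.ofReal_mul (mul_nonneg (hv.psi_pos x).le (h0 x)), mul_comm]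
        congr 2
        ring
    _ = _ := lintegral_const_mul' _ _ measure_ball_lt_top.ne

/-- the average over the centres of the cut forms -/
theorem avg_form (hv : Sol v) {z : EE n → ℝ} (hz : Measurable z) {r L : ℝ} (hl : r + L ≤ l) :
    volume (ball (0 : EE n) r) * ∫⁻ x, ∫⁻ y, ind (|dd v x| ≤ T ∧ |dd v y| ≤ T ∧ dist x y ≤ L) *
        oR (SS v x * Gk 2 (y - x) * SS v y * (z x - z y) ^ 2) ≤
      ∫⁻ c, ∫⁻ x, ∫⁻ y, oR (sc v T l c x * Gk 2 (y - x) * sc v T l c y * (z x - z y) ^ 2) := by
  have mG := measurable_Gk (n := n) 2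
  have m3 : ∀ {α : Type} [MeasurableSpace α] {c x y : α → EE n}, Measurable c → Measurable x →
      Measurable y → Measurable fun a => oR (sc v T l (c a) (x a) * Gk 2 (y a - x a) *
        sc v T l (c a) (y a) * (z (x a) - z (y a)) ^ 2) := fun hc hx hy =>
    ((((measurable_sc hv hc hx).mul (mG.comp (hy.sub hx))).mul (measurable_sc hv hc hy)).mul
      (((hz.comp hx).sub (hz.comp hy)).pow_const 2)).ennreal_ofReal
  refine le_of_le_of_eq ?_ (lintegral_lintegral_swap (m3 (α := (EE n × EE n) × EE n)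
    measurable_fst.fst measurable_fst.snd measurable_snd).lintegral_prod_right'.aemeasurable).symm
  rw [← lintegral_const_mul' _ _ measure_ball_lt_top.ne]
  refine lintegral_mono fun x => ?_
  refine le_of_le_of_eq ?_ (lintegral_lintegral_swap (m3 (α := EE n × EE n) measurable_fst
    measurable_const measurable_snd).aemeasurable).symm
  rw [← lintegral_const_mul' _ _ measure_ball_lt_top.ne]
  refine lintegral_mono fun y => ?_
  rw [mul_left_comm]
  refine ind_mul_le fun ⟨hx, hy, hd⟩ => ?_
  rw [← Measure.addHaar_ball_center volume x, mul_comm, ← lintegral_indicator_const measurableSet_ball]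
  refine lintegral_mono fun c => ?_
  by_cases hc : c ∈ ball x r
  swap
  · simp [indicator_of_notMem hc]
  rw [indicator_of_mem hc]
  have h1 : dist x c < r := mem_ball'.1 hc
  have h2 := dist_triangle_left y c x
  have h3 := dist_nonneg (x := x) (y := y)
  rw [sc, sc, if_pos ⟨hx, by linarith⟩, if_pos ⟨hy, by linarith⟩]

end Nr

theorem near (hL : LocStmt n) : NearStmt n := by
  intro e T L he hL0
  set e1 := min e 1 / 3 with he1
  have e0 : 0 < e1 := by positivity
  have e2 : (1 + e1) * (1 + e1) ≤ 1 + e := by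
    have := min_le_left e 1
    have := min_le_right e 1
    nlinarith
  obtain ⟨θ, hθ1, hθ⟩ : ∃ θ : ℝ, 1 < θ ∧ θ ^ n ≤ 1 + e1 := by
    have h : ∀ᶠ θ : ℝ in 𝓝[>] 1, θ ^ n ≤ 1 + e1 := nhdsWithin_le_nhds
      (((continuous_pow n).tendsto' (1 : ℝ) 1 (one_pow n)).eventually (Iic_mem_nhds (by linarith)))
    obtain ⟨θ, h1, h2⟩ := (h.and self_mem_nhdsWithin).exists
    exact ⟨θ, h2, h1⟩
  set r := L / (θ - 1) with hr
  have r0 : 0 < r := div_pos hL0 (by linarith)
  have hl : r + L = θ * r := by
    have : (θ - 1) * r = L := mul_div_cancel₀ _ (by linarith)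
    linarith
  obtain ⟨l', hl', hL⟩ := hL e1 (θ * r) e0 (by positivity)
  refine ⟨T + θ * r + l' + 1, by linarith, fun v z hv hz hlip => ?_⟩
  set U := {x | |dd v x| < T + θ * r + l' + 1} with hU
  have h1 : ∀ c, ∫⁻ x, ∫⁻ y, oR (Nr.sc v T (θ * r) c x * Gk 2 (y - x) * Nr.sc v T (θ * r) c y *
      (z x - z y) ^ 2) ≤
      oR (2 * (1 + e1)) * ∫⁻ x in U, oR (res 2 (Nr.sc v T (θ * r) c) x ^ 2 * gsq z x) := by
    intro c
    by_cases hw : ∃ w, |dd v w| ≤ T ∧ dist w c < θ * r
    · obtain ⟨w, hw1, hw2⟩ := hw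
      have hs : closedBall c l' ⊆ U := fun u hu => by
        have a1 := hv.abs_dd_sub_le u w
        have a2 := dist_triangle_right u w c
        have a3 := abs_sub_abs_le_abs_sub (dd v u) (dd v w)
        rw [← dist_eq_norm] at a1
        change |dd v u| < T + θ * r + l' + 1
        linarith [mem_closedBall.1 hu]
      obtain ⟨K, hK⟩ := (hlip.mono hs).exists_lipschitzOnWith_of_compact (isCompact_closedBall c l')
      refine (hL c _ z 3 K (Nr.measurable_sc hv measurable_const measurable_id)
        (fun x => ⟨(Nr.sc_mem hv c x).1, (Nr.sc_mem hv c x).2.trans (Nr.SS_mem hv x).2⟩)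
        (fun x hx => if_neg fun h => h.2.not_ge hx) (hK.mono ball_subset_closedBall)).trans ?_
      exact mul_le_mul_right (lintegral_mono_set (ball_subset_closedBall.trans hs)) _
    · have : ∀ x, Nr.sc v T (θ * r) c x = 0 := fun x => if_neg fun h => hw ⟨x, h⟩
      simp [this]
  have mg : Measurable (gsq z) := Finset.measurable_sum _ fun i _ =>
    (measurable_fderiv_apply_const ℝ z (ev i)).pow_const 2
  have h2 := (Nr.avg_form (T := T) hv hz hl.le).trans (lintegral_mono h1)
  rw [lintegral_const_mul' _ _ ENNReal.ofReal_ne_top] at h2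
  have h3 := h2.trans (mul_le_mul_right (Nr.avg_res hv mg (gsq_nonneg z) U) _)
  have h4 : volume (ball (0 : EE n) (θ * r)) ≤ oR (1 + e1) * volume (ball (0 : EE n) r) := by
    rw [Measure.addHaar_ball_mul_of_pos _ _ (by linarith), finrank_euclideanSpace_fin]
    exact mul_le_mul_left (ENNReal.ofReal_le_ofReal hθ) _
  rw [← ENNReal.mul_le_mul_iff_right (measure_ball_pos volume (0 : EE n) r0).ne'
    measure_ball_lt_top.ne]
  refine h3.trans ((mul_le_mul_right (mul_le_mul_left h4 _) _).trans ?_)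
  rw [← mul_assoc, ← mul_assoc, ← mul_assoc, ← ENNReal.ofReal_mul (by positivity),
    mul_comm (volume _)]
  exact mul_le_mul_left (mul_le_mul_left (ENNReal.ofReal_le_ofReal (by linarith)) _) _

end

end Crest.Agent.N067.S
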