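import Crest.Agent.N067.Y.OM0
import Crest.Agent.N067.Y.Base
import Crest.Agent.N067.U.Prof

/-!
# Row 67, block STAB (helper62): the convex test function `ψ φ(|n - a|²)`

`φ(s) = 2ε(√(ε² + s) - ε)`; for `g = ψ φ(|n - n x|²)` one has `0 = g x = G ((2 - Δ) g) x`.
-/

set_option autoImplicit false

open MeasureTheory Laplacian InnerProductSpace Topology Filter Set
open scoped RealInnerProductSpace Gradient ContDiff ENNReal

namespace Crest.Agent.N067.S.Ph

open Crest.Agent.R077 Crest.Agent.N067.Ker Crest.Agent.N067.Y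

noncomputable section

variable {n : ℕ} {v : EE n → ℝ} {ε : ℝ}

/-- the concave profile -/
def ph (ε s : ℝ) : ℝ := 2 * ε * (√(ε ^ 2 + s) - ε)

theorem le_rt {s : ℝ} (hs : 0 ≤ s) : ε ≤ √(ε ^ 2 + s) :=
  Real.le_sqrt_of_sq_le (by linarith)

theorem ph_nonneg (hε : 0 < ε) {s : ℝ} (hs : 0 ≤ s) : 0 ≤ ph ε s :=
  mul_nonneg (by positivity) (sub_nonneg.2 (le_rt hs))

theorem ph_zero (hε : 0 < ε) : ph ε 0 = 0 := by
  rw [ph, add_zero, Real.sqrt_sq hε.le, sub_self, mul_zero]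

/-- `φ(a² + b) ≤ 2 ε a + b` -/
theorem ph_le (hε : 0 < ε) {a b : ℝ} (ha : 0 ≤ a) (hb : 0 ≤ b) :
    ph ε (a ^ 2 + b) ≤ 2 * ε * a + b := by
  have h : √(ε ^ 2 + (a ^ 2 + b)) ≤ ε + a + b / (2 * ε) := by
    refine Real.sqrt_le_iff.2 ⟨by positivity, ?_⟩
    have e : 2 * ε * (b / (2 * ε)) = b := by field_simp
    have : 0 ≤ b / (2 * ε) := by positivity
    nlinarith [mul_nonneg hε.le ha, mul_nonneg ha this, sq_nonneg (b / (2 * ε))]
  have e : 2 * ε * (ε + a + b / (2 * ε) - ε) = 2 * ε * a + b := by field_simp; ring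
  rw [ph, ← e]
  exact mul_le_mul_of_nonneg_left (by linarith) (by positivity)

theorem continuous_ph (ε : ℝ) : Continuous (ph ε) := by unfold ph; fun_prop

theorem hasDerivAt_ph {s : ℝ} (hs : 0 < ε ^ 2 + s) : HasDerivAt (ph ε) (ε / √(ε ^ 2 + s)) s := by
  have h := ((((hasDerivAt_id s).const_add (ε ^ 2)).sqrt hs.ne').sub_const ε).const_mul (2 * ε)
  refine HasDerivAt.congr_deriv h ?_
  have := Real.sqrt_pos.2 hs
  simp only [id]
  field_simp

theorem hasDerivAt_ph1 {s : ℝ} (hs : 0 < ε ^ 2 + s) :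
    HasDerivAt (fun s => ε / √(ε ^ 2 + s)) (-(ε / (2 * √(ε ^ 2 + s) ^ 3))) s := by
  have h0 := Real.sqrt_pos.2 hs
  have h := (hasDerivAt_const s ε).div (((hasDerivAt_id s).const_add (ε ^ 2)).sqrt hs.ne') h0.ne'
  refine HasDerivAt.congr_deriv h ?_
  simp only [id]
  field_simp
  ring

theorem contDiffAt_ph {s : ℝ} (hs : 0 < ε ^ 2 + s) {k : WithTop ℕ∞} : ContDiffAt ℝ k (ph ε) s :=
  contDiffAt_const.mul (((contDiffAt_const.add contDiffAt_id).sqrt hs.ne').sub contDiffAt_const)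

/-- `|n - a|²` -/
def fa (v : EE n → ℝ) (a y : EE n) : ℝ := ∑ i, (pdv i (dd v) y - a i) ^ 2

theorem fa_eq (v : EE n → ℝ) (a y : EE n) : fa v a y = ‖∇ (dd v) y - a‖ ^ 2 := by
  rw [EuclideanSpace.norm_sq_eq, fa]
  simp only [PiLp.sub_apply, grad_apply, Real.norm_eq_abs, sq_abs]

theorem fa_nonneg (v : EE n → ℝ) (a y : EE n) : 0 ≤ fa v a y := by rw [fa_eq]; positivity

theorem fa_sm (hv : Sol v) (a : EE n) : ContDiff ℝ ∞ (fa v a) :=
  ContDiff.sum fun i _ => ((hv.pdv_dd_sm i).sub contDiff_const).pow 2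

theorem lm_fa (hv : Sol v) (a y : EE n) : Lm v (fa v a) y =
    2 * hsq (dd v) y - 2 * qq v y * ⟪∇ (dd v) y - a, ∇ (dd v) y⟫ := by
  have c : ∀ i, ContDiffAt ℝ 2 (fun y => pdv i (dd v) y - a i) y := fun i =>
    Om.c2 ((hv.pdv_dd_sm i).sub contDiff_const) y
  have e1 : ∀ i, Lm v (fun y => pdv i (dd v) y - a i) y = -qq v y * pdv i (dd v) y := fun i => by
    rw [← hv.Lm_pdv, Lm_eq, Lm_eq, lap_sub_const (Om.c2 (hv.pdv_dd_sm i) y)]
    simp only [gin, pdv_sub_const]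
  have e2 : ∀ i, gsq (fun y => pdv i (dd v) y - a i) y = ∑ j, pdv j (pdv i (dd v)) y ^ 2 :=
    fun i => by simp only [gsq, pdv_sub_const]
  change Lm v (fun y => ∑ i, (pdv i (dd v) y - a i) ^ 2) y = _
  rw [Om.lm_sum _ fun i _ => (c i).pow 2, hsq_eq, Finset.sum_comm, inner_eq_sum, Finset.mul_sum,
    Finset.mul_sum, ← Finset.sum_sub_distrib]
  refine Finset.sum_congr rfl fun i _ => ?_
  rw [Om.lm_sq (c i), e1, e2, PiLp.sub_apply, grad_apply]
  ring

theorem gsq_fa (hv : Sol v) (a y : EE n) : gsq (fa v a) y ≤ 4 * fa v a y * hsq (dd v) y := by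
  have c : ∀ i, DifferentiableAt ℝ (fun y => pdv i (dd v) y - a i) y := fun i =>
    Om.df ((hv.pdv_dd_sm i).sub contDiff_const) y
  have e : ∀ j, pdv j (fa v a) y =
      2 * ∑ i, (pdv i (dd v) y - a i) * pdv j (pdv i (dd v)) y := fun j => by
    change pdv j (fun y => ∑ i, (pdv i (dd v) y - a i) ^ 2) y = _
    rw [pdv_sum (F := fun i y => (pdv i (dd v) y - a i) ^ 2) _ fun i _ => (c i).pow 2,
      Finset.mul_sum]
    refine Finset.sum_congr rfl fun i _ => ?_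
    rw [pdv_sq (c i), pdv_sub_const]
    ring
  simp only [gsq, e, hsq_eq, Finset.mul_sum (f := fun i => ∑ j, pdv i (pdv j (dd v)) y ^ 2)]
  refine Finset.sum_le_sum fun j _ => ?_
  have h := Finset.sum_mul_sq_le_sq_mul_sq Finset.univ (fun i => pdv i (dd v) y - a i)
    (fun i => pdv j (pdv i (dd v)) y)
  rw [mul_pow, fa]
  linarith

/-- `φ(|n - a|²)` -/
def hh (ε : ℝ) (v : EE n → ℝ) (a y : EE n) : ℝ := ph ε (fa v a y)

theorem hh_sm (hv : Sol v) (hε : 0 < ε) (a : EE n) : ContDiff ℝ ∞ (hh ε v a) :=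
  contDiff_iff_contDiffAt.2 fun y =>
    (contDiffAt_ph (by have := fa_nonneg v a y; positivity)).comp y (fa_sm hv a).contDiffAt

/-- the weight `ε³ / (ε² + |n - a|²)^{3/2}` -/
def ww (ε : ℝ) (v : EE n → ℝ) (a y : EE n) : ℝ := (ε / √(ε ^ 2 + fa v a y)) ^ 3

theorem ww_mem (hε : 0 < ε) (v : EE n → ℝ) (a y : EE n) : 0 ≤ ww ε v a y ∧ ww ε v a y ≤ 1 := by
  have h := le_rt (ε := ε) (fa_nonneg v a y)
  exact ⟨by unfold ww; positivity,
    pow_le_one₀ (by positivity) ((div_le_one (hε.trans_le h)).2 h)⟩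

theorem lm_hh (hv : Sol v) (hε : 0 < ε) (a y : EE n) :
    2 * hsq (dd v) y * ww ε v a y - 2 * ε * qq v y ≤ Lm v (hh ε v a) y ∧
      Lm v (hh ε v a) y ≤ 2 * hsq (dd v) y + 2 * ε * qq v y := by
  have f0 := fa_nonneg v a y
  have hs : 0 < ε ^ 2 + fa v a y := by positivity
  have e : Lm v (hh ε v a) y = ε / √(ε ^ 2 + fa v a y) * Lm v (fa v a) y +
      -(ε / (2 * √(ε ^ 2 + fa v a y) ^ 3)) * gsq (fa v a) y := by
    have h1 := lap_comp (f := fa v a) (x := y) (φ := ph ε) (φ1 := fun s => ε / √(ε ^ 2 + s))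
      (Om.c2 (fa_sm hv a) y) (contDiffAt_ph hs) (by
        filter_upwards [Ioi_mem_nhds (show -ε ^ 2 < fa v a y by linarith)] with s hs
        exact hasDerivAt_ph (by linarith [mem_Ioi.1 hs])) (hasDerivAt_ph1 hs)
    have h2 := gin_comp_right (f := dd v) (hasDerivAt_ph hs) (Om.df (fa_sm hv a) y)
    change Lm v (fun y => ph ε (fa v a y)) y = _
    rw [Lm_eq, Lm_eq, h1, h2]
    ring
  set r := √(ε ^ 2 + fa v a y) with hr
  have hεr : ε ≤ r := le_rt f0
  have r0 : 0 < r := hε.trans_le hεr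
  have r2 : r ^ 2 = ε ^ 2 + fa v a y := Real.sq_sqrt hs.le
  have hP : |⟪∇ (dd v) y - a, ∇ (dd v) y⟫| ≤ r := by
    refine (abs_real_inner_le_norm _ _).trans
      ((mul_le_of_le_one_right (norm_nonneg _) (hv.norm_grad_dd_le y)).trans ?_)
    refine Real.le_sqrt_of_sq_le ?_
    rw [← fa_eq]
    nlinarith
  have q0 : 0 ≤ qq v y := mul_nonneg (hv.psi_pos y).le (hv.tt_nonneg y)
  have hP' : |ε / r * ⟪∇ (dd v) y - a, ∇ (dd v) y⟫| ≤ ε := by
    rw [abs_mul, abs_of_pos (div_pos hε r0)]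
    calc _ ≤ ε / r * r := mul_le_mul_of_nonneg_left hP (div_pos hε r0).le
      _ = ε := by field_simp
  have g0 := gsq_nonneg (fa v a) y
  have g1 := gsq_fa hv a y
  have b0 := hsq_nonneg (dd v) y
  have c0 : 0 ≤ ε / (2 * r ^ 3) := by positivity
  have hq1 := mul_le_mul_of_nonneg_left (abs_le.1 hP').1 q0
  have hq2 := mul_le_mul_of_nonneg_left (abs_le.1 hP').2 q0
  rw [e, lm_fa hv]
  constructor
  · have h1 := mul_le_mul_of_nonneg_left g1 c0
    have h2 : 2 * hsq (dd v) y * ww ε v a y = ε / r * (2 * hsq (dd v) y) -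
        ε / (2 * r ^ 3) * (4 * fa v a y * hsq (dd v) y) := by
      rw [ww, ← hr, show fa v a y = r ^ 2 - ε ^ 2 by linarith]
      field_simp
      ring
    rw [h2]
    nlinarith
  · have h1 := mul_nonneg c0 g0
    have h2 : ε / r * (2 * hsq (dd v) y) ≤ 2 * hsq (dd v) y :=
      mul_le_of_le_one_left (by positivity) ((div_le_one r0).2 hεr)
    nlinarith

theorem lap_psi_mul (hv : Sol v) {h : EE n → ℝ} (hh : ContDiff ℝ ∞ h) (y : EE n) :
    2 * (psi v y * h y) - (Δ fun y => psi v y * h y) y =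
      psi v y ^ 2 * (3 - tt v y) * h y - psi v y * Lm v h y := by
  have e : gin (psi v) h y = -Real.sqrt 2 * v y * psi v y * gin (dd v) h y := by
    simp only [gin, hv.pdv_psi, Finset.mul_sum]
    exact Finset.sum_congr rfl fun i _ => by ring
  rw [lap_mul' (Om.c2 hv.psi_sm y) (Om.c2 hh y), hv.lap_psi2, e, Lm_eq]
  ring

theorem hh_mem (hv : Sol v) (hε : 0 < ε) (x y : EE n) :
    0 ≤ hh ε v (∇ (dd v) x) y ∧ hh ε v (∇ (dd v) x) y ≤ 4 * ε := by
  refine ⟨ph_nonneg hε (fa_nonneg _ _ _), ?_⟩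
  have h := ph_le hε (norm_nonneg (∇ (dd v) y - ∇ (dd v) x)) le_rfl
  rw [add_zero, add_zero, ← fa_eq] at h
  have h2 := norm_sub_le (∇ (dd v) y) (∇ (dd v) x)
  have := hv.norm_grad_dd_le x
  have := hv.norm_grad_dd_le y
  unfold hh
  nlinarith

theorem one_sub_le_tt (hv : Sol v) (x : EE n) : 1 - ‖∇ (dd v) x‖ ≤ tt v x := by
  have := hv.norm_grad_dd_le x
  have := norm_nonneg (∇ (dd v) x)
  unfold tt
  nlinarith

/-- `φ ≤ 2 (N N' - ⟪n, n'⟫) + 2 ε (t + t')` -/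
theorem hh_le (hv : Sol v) (hε : 0 < ε) (x y : EE n) : hh ε v (∇ (dd v) x) y ≤
    2 * (‖∇ (dd v) x‖ * ‖∇ (dd v) y‖ - ⟪∇ (dd v) x, ∇ (dd v) y⟫) + 2 * ε * (tt v x + tt v y) := by
  have h0 : 0 ≤ 2 * (‖∇ (dd v) x‖ * ‖∇ (dd v) y‖ - ⟪∇ (dd v) x, ∇ (dd v) y⟫) := by
    have := real_inner_le_norm (∇ (dd v) x) (∇ (dd v) y)
    linarith
  have h := ph_le hε (abs_nonneg (‖∇ (dd v) x‖ - ‖∇ (dd v) y‖)) h0
  have e : |‖∇ (dd v) x‖ - ‖∇ (dd v) y‖| ^ 2 +
      2 * (‖∇ (dd v) x‖ * ‖∇ (dd v) y‖ - ⟪∇ (dd v) x, ∇ (dd v) y⟫) = fa v (∇ (dd v) x) y := by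
    rw [fa_eq, norm_sub_sq_real, sq_abs, real_inner_comm]
    ring
  have h1 : |‖∇ (dd v) x‖ - ‖∇ (dd v) y‖| ≤ tt v x + tt v y := by
    have := one_sub_le_tt hv x
    have := one_sub_le_tt hv y
    have := hv.norm_grad_dd_le x
    have := hv.norm_grad_dd_le y
    have := hv.tt_nonneg x
    have := hv.tt_nonneg y
    rw [abs_le]
    constructor <;> linarith
  rw [e] at h
  unfold hh
  nlinarith

theorem continuous_ww (hv : Sol v) (hε : 0 < ε) (a : EE n) : Continuous (ww ε v a) := by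
  refine (continuous_const.div ((continuous_const.add (fa_sm hv a).continuous).sqrt) fun y => ?_).pow 3
  exact (hε.trans_le (le_rt (fa_nonneg v a y))).ne'

/-- PHI, real form -/
theorem phi_all (hv : Sol v) (hε : 0 < ε) (x : EE n) :
    ((Integrable fun y => Gk 2 (y - x) * (2 * psi v y * hsq (dd v) y * ww ε v (∇ (dd v) x) y)) ∧
      Integrable fun y =>
        Gk 2 (y - x) * (psi v y ^ 2 * (3 * hh ε v (∇ (dd v) x) y + 2 * ε * tt v y))) ∧
    ∫ y, Gk 2 (y - x) * (2 * psi v y * hsq (dd v) y * ww ε v (∇ (dd v) x) y) ≤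
      ∫ y, Gk 2 (y - x) * (psi v y ^ 2 * (3 * hh ε v (∇ (dd v) x) y + 2 * ε * tt v y)) := by
  obtain ⟨C, hC0, hC⟩ := (Ord.hsq2 (n := n)).bd0
  set a := ∇ (dd v) x with ha
  have hb : ∀ y, hsq (dd v) y ≤ C := fun y => (le_abs_self _).trans (hC v hv y)
  have hsm := hv.psi_sm.mul (hh_sm hv hε a)
  have hm := hh_mem hv hε x
  have p0 := hv.psi_pos
  have p1 := psi_le_one v
  have t0 := hv.tt_nonneg
  have t1 := tt_le_one v
  have q1 : ∀ y, 0 ≤ qq v y ∧ qq v y ≤ 1 := fun y =>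
    ⟨mul_nonneg (p0 y).le (t0 y), mul_le_one₀ (p1 y) (t0 y) (t1 y)⟩
  have b0 : ∀ y, |psi v y * hh ε v a y| ≤ 4 * ε := fun y => by
    rw [abs_of_nonneg (mul_nonneg (p0 y).le (hm y).1)]
    exact (mul_le_of_le_one_left (hm y).1 (p1 y)).trans (hm y).2
  have bL : ∀ y, |psi v y * Lm v (hh ε v a) y| ≤ 2 * C + 2 * ε := fun y => by
    rw [abs_mul, abs_of_pos (p0 y)]
    refine (mul_le_of_le_one_left (abs_nonneg _) (p1 y)).trans (abs_le.2 ⟨?_, ?_⟩)
    · nlinarith [(lm_hh hv hε a y).1, q1 y, mul_nonneg (hsq_nonneg (dd v) y) (ww_mem hε v a y).1]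
    · nlinarith [(lm_hh hv hε a y).2, q1 y, hb y]
  have bS : ∀ y, |psi v y ^ 2 * (3 - tt v y) * hh ε v a y| ≤ 12 * ε := fun y => by
    have h1 : 0 ≤ psi v y ^ 2 * (3 - tt v y) := mul_nonneg (sq_nonneg _) (by linarith [t1 y])
    have h2 : psi v y ^ 2 * (3 - tt v y) ≤ 1 * 3 :=
      mul_le_mul (pow_le_one₀ (p0 y).le (p1 y)) (by linarith [t0 y]) (by linarith [t1 y]) zero_le_one
    rw [abs_of_nonneg (mul_nonneg h1 (hm y).1)]
    exact (mul_le_mul h2 (hm y).2 (hm y).1 (by norm_num)).trans (by linarith)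
  have e := congrFun (rep_res (μ := 2) (M := 2 * C + 22 * ε) two_pos le_rfl (by norm_num)
    (contDiff_infty.1 hsm 2) (gr_of_bdd fun y => (b0 y).trans (by linarith)) (gr_of_bdd fun y => by
      have h1 := lap_psi_mul hv (hh_sm hv hε a) y
      have h2 := abs_le.1 (b0 y)
      have h3 := abs_le.1 (bL y)
      have h4 := abs_le.1 (bS y)
      rw [abs_le]
      constructor <;> linarith)) x
  have e0 : hh ε v a x = 0 := by rw [hh, fa_eq, ← ha, sub_self, norm_zero, sq, mul_zero, ph_zero hε]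
  simp only [lap_psi_mul hv (hh_sm hv hε a), e0, mul_zero, res, cv_eq] at e
  have ig : ∀ {F : EE n → ℝ} {M : ℝ}, Continuous F → (∀ y, |F y| ≤ M) →
      Integrable fun y => Gk 2 (y - x) * F y := fun hF hM =>
    ((integrable_Gk two_pos).comp_sub_right x).mul_bdd hF.aestronglyMeasurable
      (Eventually.of_forall hM)
  have cp := hv.psi_sm.continuous
  have ct := hv.tt_sm.continuous
  have ch := (hh_sm hv hε a).continuous
  have cb := hv.hsq_sm.continuous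
  have cw := continuous_ww hv hε a
  have cL : Continuous fun y => psi v y ^ 2 * (3 - tt v y) * hh ε v a y -
      psi v y * Lm v (hh ε v a) y := by
    simp only [← lap_psi_mul hv (hh_sm hv hε a)]
    exact (continuous_const.mul hsm.continuous).sub (continuous_lap (contDiff_infty.1 hsm 2))
  have i1 := ig (M := 2 * C + 14 * ε) cL fun y =>
    (abs_sub _ _).trans (by linarith [bS y, bL y])
  have i2 := ig (F := fun y => 2 * psi v y * hsq (dd v) y * ww ε v a y) (M := 2 * C) (by fun_prop)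
    fun y => by
      have h1 := hsq_nonneg (dd v) y
      have h2 := ww_mem hε v a y
      have h3 := p0 y
      rw [abs_of_nonneg (mul_nonneg (by positivity) h2.1)]
      refine (mul_le_of_le_one_right (by positivity) h2.2).trans ?_
      nlinarith [hb y, p1 y]
  have i3 := ig (F := fun y => psi v y ^ 2 * (3 * hh ε v a y + 2 * ε * tt v y)) (M := 14 * ε)
    (by fun_prop) fun y => by
      have h1 : 0 ≤ 3 * hh ε v a y + 2 * ε * tt v y := by nlinarith [hm y, t0 y]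
      rw [abs_of_nonneg (mul_nonneg (sq_nonneg _) h1)]
      refine (mul_le_of_le_one_left h1 (pow_le_one₀ (p0 y).le (p1 y))).trans ?_
      nlinarith [hm y, t1 y]
  refine ⟨⟨i2, i3⟩, ?_⟩
  rw [← sub_nonneg, ← integral_sub i3 i2, e]
  refine integral_mono i1 (i3.sub i2) fun y => ?_
  simp only
  rw [← mul_sub]
  refine mul_le_mul_of_nonneg_left ?_ (Gk_nonneg _ _)
  have h1 := mul_le_mul_of_nonneg_left (lm_hh hv hε a y).1 (p0 y).le
  have h2 := mul_nonneg (mul_nonneg (sq_nonneg (psi v y)) (t0 y)) (hm y).1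
  rw [qq] at h1
  nlinarith

end

end Crest.Agent.N067.S.Ph
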