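import Crest.Agent.N067.S.Defs
import Crest.Agent.N067.S.Phi0

/-!
# Row 67, block STAB (helper62): the leaf PHI and the pointwise bounds of `pf`
-/

set_option autoImplicit false

open MeasureTheory Laplacian InnerProductSpace Topology Filter Set
open scoped RealInnerProductSpace Gradient ContDiff ENNReal

namespace Crest.Agent.N067.S

open Crest.Agent.R077 Crest.Agent.N067.Ker Crest.Agent.N067.M

noncomputable section

variable {n : ℕ} {v : EE n → ℝ} {ε : ℝ}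

theorem pf_eq_hh (ε : ℝ) (v : EE n → ℝ) (x y : EE n) :
    pf ε (‖nn v y - nn v x‖ ^ 2) = Ph.hh ε v (∇ (dd v) x) y := by
  rw [Ph.hh, Ph.fa_eq]; rfl

theorem pf_nonneg (hε : 0 < ε) {s : ℝ} (hs : 0 ≤ s) : 0 ≤ pf ε s := Ph.ph_nonneg hε hs

theorem continuous_pf (ε : ℝ) : Continuous (pf ε) := Ph.continuous_ph ε

theorem pf_le_four (hv : Sol v) (hε : 0 < ε) (x y : EE n) :
    pf ε (‖nn v y - nn v x‖ ^ 2) ≤ 4 * ε := by
  rw [pf_eq_hh]; exact (Ph.hh_mem hv hε x y).2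

/-- `pf / 2 ≤ gf + ε (t + t')` -/
theorem pf_le_gf (hv : Sol v) (hε : 0 < ε) (x y : EE n) :
    pf ε (‖nn v y - nn v x‖ ^ 2) ≤ 2 * gf v x y + 2 * ε * (tt v x + tt v y) := by
  rw [pf_eq_hh]; exact Ph.hh_le hv hε x y

theorem phiS (n : ℕ) : PhiStmt n := by
  intro v ε x hv hε
  obtain ⟨⟨i2, i3⟩, h⟩ := Ph.phi_all hv hε x
  have e1 : ∀ y, (ε / √(ε ^ 2 + ‖nn v y - nn v x‖ ^ 2)) ^ 3 = Ph.ww ε v (∇ (dd v) x) y :=
    fun y => by rw [Ph.ww, Ph.fa_eq]; rfl
  simp only [e1, pf_eq_hh, oR]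
  rw [← ofReal_integral_eq_lintegral_ofReal i2 (Eventually.of_forall fun y => ?_),
    ← ofReal_integral_eq_lintegral_ofReal i3 (Eventually.of_forall fun y => ?_)]
  · exact ENNReal.ofReal_le_ofReal h
  · have := (Ph.hh_mem hv hε x y).1
    have := hv.tt_nonneg y
    exact mul_nonneg (Gk_nonneg _ _) (by positivity)
  · have := (Ph.ww_mem hε v (∇ (dd v) x) y).1
    have := hv.psi_pos y
    have := hsq_nonneg (dd v) y
    exact mul_nonneg (Gk_nonneg _ _) (by positivity)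

end

end Crest.Agent.N067.S
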