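import Crest.Agent.N067.S.Defs

/-!
# Row 67, block STAB: the leaves TL0 and TG (helper98, task 817)
-/

set_option autoImplicit false

open MeasureTheory Laplacian InnerProductSpace Topology Filter Set Metric
open scoped RealInnerProductSpace ContDiff Gradient ENNReal NNReal

namespace Crest.Agent.N067.S

open Crest.Agent.R077 Crest.Agent.N067.Ker Crest.Agent.N067.M Crest.Agent.N067.V

noncomputable section

variable {n : ℕ}

namespace TL0

/-- Taylor's bound from a bound of the Hessian on a ball -/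
theorem abs_tay_le_loc {f : EE n → ℝ} (hf : ContDiff ℝ ∞ f) {C : ℝ} (p x : EE n)
    (h : ∀ w ∈ closedBall x ‖p‖, ‖hb f w‖ ≤ C) : |tay f p x| ≤ C * ‖p‖ ^ 2 := by
  have hx : x ∈ closedBall x ‖p‖ := mem_closedBall_self (norm_nonneg p)
  have h6 := (convex_closedBall x ‖p‖).norm_image_sub_le_of_norm_fderiv_le' (f := f)
    (φ := fderiv ℝ f x) (C := C * ‖p‖) (fun z _ => hf.differentiable (by simp) z)
    (fun z hz => ((convex_closedBall x ‖p‖).norm_image_sub_le_of_norm_fderiv_le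
      (fun w _ => diff_fderiv hf w) h hx hz).trans
        (mul_le_mul_of_nonneg_left (mem_closedBall_iff_norm.1 hz)
          ((norm_nonneg (hb f x)).trans (h x hx))))
    hx (show x + p ∈ _ by simp)
  rw [add_sub_cancel_left, Real.norm_eq_abs, abs_sub_comm] at h6
  rw [tay, sq, ← mul_assoc]
  convert h6 using 2
  ring

theorem abs_tay_le_two {v : EE n → ℝ} (hv : Sol v) (p x : EE n) :
    |tay (dd v) p x| ≤ 2 * ‖p‖ := by
  have h1 := hv.abs_dd_sub_le x (x + p)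
  rw [sub_add_cancel_left, norm_neg] at h1
  have h2 : |fderiv ℝ (dd v) x p| ≤ ‖p‖ := by
    rw [← N067.inner_grad]
    exact (abs_real_inner_le_norm _ _).trans
      (mul_le_of_le_one_left (norm_nonneg p) (hv.norm_grad_dd_le x))
  have e : tay (dd v) p x = (dd v x - dd v (x + p)) + fderiv ℝ (dd v) x p := by
    rw [tay]; ring
  rw [e]
  linarith [abs_add_le (dd v x - dd v (x + p)) (fderiv ℝ (dd v) x p)]

theorem exp_neg_inv_le {κ : ℝ} (hκ : 0 < κ) : Real.exp (-(1 / κ)) ≤ κ := by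
  rw [Real.exp_neg, inv_le_comm₀ (Real.exp_pos _) hκ]
  have := Real.add_one_le_exp (1 / κ)
  rw [one_div] at this ⊢
  linarith

theorem num {B H κ t : ℝ} (hH : 0 ≤ H) (hκ : 0 < κ) (ht : 0 ≤ t)
    (h : κ ^ 2 ≤ B ^ 2 * (Real.exp (H * (2 / κ)) * t)) :
    Real.exp (-((2 + 2 * H + B ^ 2) / κ) - (2 + 2 * H + B ^ 2)) ≤ t := by
  have e1 := pow_le_pow_left₀ (Real.exp_pos _).le (exp_neg_inv_le hκ) 2
  have e2 : B ^ 2 ≤ Real.exp (B ^ 2) := by linarith [Real.add_one_le_exp (B ^ 2)]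
  have E0 := Real.exp_pos (H * (2 / κ))
  have e3 : Real.exp (B ^ 2) * (Real.exp (H * (2 / κ)) *
      Real.exp (-((2 + 2 * H + B ^ 2) / κ) - (2 + 2 * H + B ^ 2))) ≤
      Real.exp (-(1 / κ)) ^ 2 := by
    rw [← Real.exp_add, ← Real.exp_add, ← Real.exp_nat_mul]
    refine Real.exp_le_exp.2 ?_
    have i0 : 0 < κ⁻¹ := inv_pos.2 hκ
    rw [div_eq_mul_inv (2 + 2 * H + B ^ 2), div_eq_mul_inv 2, one_div]
    push_cast
    nlinarith [mul_nonneg (sq_nonneg B) i0.le]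
  have e4 : B ^ 2 * (Real.exp (H * (2 / κ)) * t) ≤
      Real.exp (B ^ 2) * (Real.exp (H * (2 / κ)) * t) :=
    mul_le_mul_of_nonneg_right e2 (mul_nonneg E0.le ht)
  exact le_of_mul_le_mul_left (le_of_mul_le_mul_left (e3.trans (e1.trans (h.trans e4)))
    (Real.exp_pos _)) E0

/-- `ψ` is bounded below on a band -/
theorem psi_ge {v : EE n → ℝ} (hv : Sol v) {x : EE n} {T : ℝ} (h : |dd v x| ≤ T) :
    1 / Real.cosh (T / √2) ^ 2 ≤ psi v x := by
  rw [hv.psi_eq_cosh]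
  refine one_div_le_one_div_of_le (pow_pos (Real.cosh_pos _) 2)
    (pow_le_pow_left₀ (Real.cosh_pos _).le (Real.cosh_le_cosh.2 ?_) 2)
  rw [abs_div, abs_div]
  exact div_le_div_of_nonneg_right (h.trans (le_abs_self T)) (abs_nonneg _)

/-- the weighted mass of the kernel is positive -/
theorem mass_pos (n : ℕ) (a : ℝ) :
    0 < ∫⁻ z : EE n, oR (Gk 2 z * Real.exp (-(a * ‖z‖))) := by
  have hm : Measurable fun z : EE n => oR (Gk 2 z * Real.exp (-(a * ‖z‖))) :=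
    ((measurable_Gk 2).mul (by fun_prop)).ennreal_ofReal
  rw [pos_iff_ne_zero, Ne, lintegral_eq_zero_iff hm]
  intro h0
  have : ∀ᵐ _z : EE n, False := by
    filter_upwards [h0, Gk_pos_ae (n := n) two_pos] with z h1 h2
    exact absurd (ENNReal.ofReal_eq_zero.1 h1) (not_le.2 (mul_pos h2 (Real.exp_pos _)))
  rw [eventually_false_iff_eq_bot, ae_eq_bot] at this
  exact NeZero.ne _ this

/-- the pointwise inequality behind TG -/
theorem pt {v : EE n → ℝ} (hv : Sol v) {H p s : ℝ} (hp : 0 ≤ p) (hs : 0 ≤ s) {x y : EE n}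
    (hx : p ≤ psi v x) (hH : tt v x ≤ Real.exp (H * ‖y - x‖) * tt v y) :
    p ^ 4 * (tt v x * s) * (Gk 2 (y - x) * Real.exp (-((2 * √2 + H) * ‖y - x‖))) ≤
      psi v x ^ 2 * Gk 2 (y - x) * psi v y ^ 2 * (tt v y * s) := by
  have h1 := hv.psi_le x y
  rw [dist_comm, dist_eq_norm] at h1
  have h2 : p ^ 2 ≤ psi v x ^ 2 := pow_le_pow_left₀ hp hx 2
  have h3 : p ^ 2 ≤ (Real.exp (√2 * ‖y - x‖) * psi v y) ^ 2 := pow_le_pow_left₀ hp (hx.trans h1) 2
  have e : Real.exp (√2 * ‖y - x‖) ^ 2 * Real.exp (H * ‖y - x‖) *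
      Real.exp (-((2 * √2 + H) * ‖y - x‖)) = 1 := by
    rw [← Real.exp_nat_mul, ← Real.exp_add, ← Real.exp_add, Real.exp_eq_one_iff]
    push_cast
    ring
  have g0 := Gk_nonneg 2 (y - x)
  have t0 := hv.tt_nonneg x
  have t1 := hv.tt_nonneg y
  calc p ^ 4 * (tt v x * s) * (Gk 2 (y - x) * Real.exp (-((2 * √2 + H) * ‖y - x‖)))
      = p ^ 2 * p ^ 2 * (tt v x * s) *
        (Gk 2 (y - x) * Real.exp (-((2 * √2 + H) * ‖y - x‖))) := by ring
    _ ≤ psi v x ^ 2 * (Real.exp (√2 * ‖y - x‖) * psi v y) ^ 2 *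
        (Real.exp (H * ‖y - x‖) * tt v y * s) *
        (Gk 2 (y - x) * Real.exp (-((2 * √2 + H) * ‖y - x‖))) := by gcongr
    _ = (Real.exp (√2 * ‖y - x‖) ^ 2 * Real.exp (H * ‖y - x‖) *
        Real.exp (-((2 * √2 + H) * ‖y - x‖))) *
        (psi v x ^ 2 * Gk 2 (y - x) * psi v y ^ 2 * (tt v y * s)) := by ring
    _ = _ := by rw [e, one_mul]

end TL0

open TL0

/-- **TL0** -/
theorem tl0 (n : ℕ) : TL0Stmt n := by
  obtain ⟨B, hB, h1⟩ := hk_B n 0
  obtain ⟨H, hH, h2⟩ := hk_har n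
  refine ⟨2 + 2 * H + B ^ 2, by nlinarith [sq_nonneg B], fun v x κ hv hκ hF => ?_⟩
  obtain ⟨z, hz⟩ := not_forall.1 hF
  rw [not_le] at hz
  set p := z - x with hp
  have e : dd v z - dd v x - ⟪∇ (dd v) x, p⟫ = -tay (dd v) p x := by
    rw [tay, N067.inner_grad, hp, add_sub_cancel]; ring
  rw [e, abs_neg] at hz
  have p0 : 0 < ‖p‖ := norm_pos_iff.2 fun h0 => by
    rw [h0] at hz; simp [tay] at hz
  have pk : ‖p‖ ≤ 2 / κ := by
    rw [le_div_iff₀ hκ]
    nlinarith [hz.trans_le (abs_tay_le_two hv p x)]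
  have t0 := hv.tt_nonneg x
  have hb1 := abs_tay_le_loc hv.dd_sm (C := B * √(Real.exp (H * (2 / κ)) * tt v x)) p x
    fun w hw => by
      rw [norm_hb]
      refine (h1 v hv w).trans (mul_le_mul_of_nonneg_left (Real.sqrt_le_sqrt
        ((h2 v hv x w).trans (mul_le_mul_of_nonneg_right (Real.exp_le_exp.2
          (mul_le_mul_of_nonneg_left ?_ hH)) t0))) hB)
      rw [norm_sub_rev]
      exact (mem_closedBall_iff_norm.1 hw).trans pk
  have k1 : κ ≤ B * √(Real.exp (H * (2 / κ)) * tt v x) :=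
    (lt_of_mul_lt_mul_right (hz.trans_le hb1) (sq_nonneg _)).le
  have k2 := pow_le_pow_left₀ hκ.le k1 2
  rw [mul_pow, Real.sq_sqrt (mul_nonneg (Real.exp_pos _).le t0)] at k2
  exact num hH hκ t0 k2

/-- **TG** -/
theorem tg (n : ℕ) : TGStmt n := by
  intro T
  obtain ⟨H, -, h2⟩ := hk_har n
  set p : ℝ := 1 / Real.cosh (T / √2) ^ 2 with hp
  have p0 : 0 < p := one_div_pos.2 (pow_pos (Real.cosh_pos _) 2)
  set I := ∫⁻ z : EE n, oR (Gk 2 z * Real.exp (-((2 * √2 + H) * ‖z‖))) with hI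
  obtain ⟨m, m0, mI⟩ : ∃ m : ℝ, 0 < m ∧ oR m ≤ I := by
    obtain ⟨r, r0, rI⟩ := ENNReal.lt_iff_exists_real_btwn.1 (mass_pos n (2 * √2 + H))
    exact ⟨r, ENNReal.ofReal_pos.1 rI.1, rI.2.le⟩
  refine ⟨p ^ 4 * m, by positivity, fun v f hv _ => ?_⟩
  rw [It, Tt, ← lintegral_const_mul' _ _ ENNReal.ofReal_ne_top]
  refine lintegral_mono fun x => ?_
  beta_reduce
  rw [mul_left_comm]
  refine ind_mul_le fun hx => ?_
  have s0 : 0 ≤ tt v x * f x ^ 2 := mul_nonneg (hv.tt_nonneg x) (sq_nonneg _)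
  calc oR (p ^ 4 * m) * oR (tt v x * f x ^ 2) = oR (p ^ 4 * (tt v x * f x ^ 2)) * oR m := by
        rw [← ENNReal.ofReal_mul (by positivity), ← ENNReal.ofReal_mul (by positivity)]
        congr 1; ring
    _ ≤ oR (p ^ 4 * (tt v x * f x ^ 2)) * I := by gcongr
    _ = ∫⁻ y, oR (p ^ 4 * (tt v x * f x ^ 2)) *
          oR (Gk 2 (y - x) * Real.exp (-((2 * √2 + H) * ‖y - x‖))) := by
        rw [lintegral_const_mul' _ _ ENNReal.ofReal_ne_top, hI, lintegral_sub_right_eq_self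
          (fun z : EE n => oR (Gk 2 z * Real.exp (-((2 * √2 + H) * ‖z‖)))) x]
    _ ≤ _ := lintegral_mono fun y => by
        beta_reduce
        rw [kk, ← ENNReal.ofReal_mul (by positivity), ← ENNReal.ofReal_mul
          (mul_nonneg (mul_nonneg (sq_nonneg _) (Gk_nonneg _ _)) (sq_nonneg _))]
        exact ENNReal.ofReal_le_ofReal (pt hv p0.le (sq_nonneg _) (psi_ge hv hx) (h2 v hv y x))

end

end Crest.Agent.N067.S
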