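import Crest.Agent.N067.S.Top
import Crest.Agent.N067.S.BG
import Crest.Agent.N067.S.Deep
import Crest.Agent.N067.S.Far
import Crest.Agent.N067.S.Geo
import Crest.Agent.N067.S.Lens
import Crest.Agent.N067.S.Loc
import Crest.Agent.N067.S.Near
import Crest.Agent.N067.S.Phi
import Crest.Agent.N067.S.TL0

/-!
Row 67, block STAB: the output, `S.stab` and `M.stab`.
-/

set_option autoImplicit false

namespace Crest.Agent.N067

theorem S.stab {n : ℕ} (h4 : 4 ≤ n) (h9 : n ≤ 9) : S.StabStmt n :=
  S.stab_of h9 (S.near (S.loc (by omega))) (S.bg (S.phiS n)) (S.deep h4)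
    (S.far (S.lens (by omega)) (S.geo n) (S.tl0 n)) (S.tg n)

theorem M.stab {n : ℕ} (h : n = 7 ∨ n = 8) : M.StabStmt n :=
  S.mstab_of (S.stab (by omega) (by omega))

end Crest.Agent.N067
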