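import Crest.Agent.N067.M.Defs
import Crest.Agent.N067.A.Dual
import Crest.Agent.N067.A.HKS

/-!
# Row 67, block STAB (helper41, 8, 62, 2): definitions and leaves, see note h41-1

`k(x,y) = ψ(x)² G(y-x) ψ(y)²`, `G = (2-Δ)⁻¹`, `n = ∇d = M.nn`.  All integrals are lower Lebesgue
integrals.  Output of the block: `StabStmt`.
-/

set_option autoImplicit false

open MeasureTheory Laplacian InnerProductSpace Topology Filter Set Metric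
open scoped RealInnerProductSpace ContDiff Gradient ENNReal NNReal

namespace Crest.Agent.N067.S

open Crest.Agent.R077 Crest.Agent.N067.Ker Crest.Agent.N067.M

noncomputable section

variable {n : ℕ}

/-- short name -/
abbrev oR (r : ℝ) : ℝ≥0∞ := ENNReal.ofReal r

open Classical in
/-- indicator of a proposition -/
def ind (P : Prop) : ℝ≥0∞ := if P then 1 else 0

theorem ind_of {P : Prop} (h : P) : ind P = 1 := by simp [ind, h]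

theorem ind_of_not {P : Prop} (h : ¬P) : ind P = 0 := by simp [ind, h]

theorem ind_le_one (P : Prop) : ind P ≤ 1 := by unfold ind; split_ifs <;> simp

theorem ind_mono {P Q : Prop} (h : P → Q) : ind P ≤ ind Q := by
  by_cases hP : P
  · rw [ind_of hP, ind_of (h hP)]
  · simp [ind_of_not hP]

/-- to bound `ind P * a` it suffices to bound `a` under `P` -/
theorem ind_mul_le {P : Prop} {a b : ℝ≥0∞} (h : P → a ≤ b) : ind P * a ≤ b := by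
  by_cases hP : P
  · rw [ind_of hP, one_mul]; exact h hP
  · simp [ind_of_not hP]

theorem measurable_ind {α : Type*} [MeasurableSpace α] {P : α → Prop}
    (h : MeasurableSet {a | P a}) : Measurable fun a => ind (P a) := by
  classical
  have : (fun a => ind (P a)) = fun a => if P a then (1 : ℝ≥0∞) else 0 := by
    funext a; unfold ind; congr
  rw [this]
  exact Measurable.ite h measurable_const measurable_const

/-- the pair kernel -/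
def kk (v : EE n → ℝ) (x y : EE n) : ℝ≥0∞ := oR (psi v x ^ 2 * Gk 2 (y - x) * psi v y ^ 2)

/-- the gain factor `|n x| |n y| - ⟪n x, n y⟫ ≥ 0` -/
def gf (v : EE n → ℝ) (x y : EE n) : ℝ := NN v x * NN v y - ⟪nn v x, nn v y⟫

/-- pair integrals -/
def LI (v : EE n → ℝ) (F : EE n → EE n → ℝ) : ℝ≥0∞ := ∫⁻ x, ∫⁻ y, kk v x y * oR (F x y)

/-- the cost form on the pairs with property `P` -/
def Ec (v f : EE n → ℝ) (P : EE n → EE n → Prop) : ℝ≥0∞ :=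
  ∫⁻ x, ∫⁻ y, ind (P x y) * (kk v x y * oR ((f x - f y) ^ 2))

/-- the full cost form -/
def E0 (v f : EE n → ℝ) : ℝ≥0∞ := ∫⁻ x, ∫⁻ y, kk v x y * oR ((f x - f y) ^ 2)

/-- the gain of the plain dual stability inequality -/
def Tt (v f : EE n → ℝ) : ℝ≥0∞ := ∫⁻ x, ∫⁻ y, kk v x y * oR (tt v y * f x ^ 2)

/-- `∫_{|d| ≤ Λ} t z²` -/
def It (v z : EE n → ℝ) (Λ : ℝ) : ℝ≥0∞ := ∫⁻ x, ind (|dd v x| ≤ Λ) * oR (tt v x * z x ^ 2)

/-- `S = (2 - Δ) ψ` -/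
def SS (v : EE n → ℝ) (x : EE n) : ℝ := psi v x ^ 2 * (3 - tt v x)

/-- the convex profile -/
def pf (ε s : ℝ) : ℝ := 2 * ε * (√(ε ^ 2 + s) - ε)

/-- the lens of the pair contains a zero -/
def Lens (v : EE n → ℝ) (c : ℝ) (x y : EE n) : Prop :=
  ∃ m, v m = 0 ∧ dist m x ≤ (1 - c) * dist x y ∧ dist m y ≤ (1 - c) * dist x y

/-- global test functions -/
structure Adm (v f : EE n → ℝ) (A : ℝ) : Prop where
  meas : Measurable f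
  nonneg : ∀ x, 0 ≤ f x
  le : ∀ x, f x ≤ A
  int : Integrable fun x => psi v x ^ 2 * f x

/-- the comparison hypothesis of `Test` -/
def Cmp (v z : EE n → ℝ) (K T : ℝ) : Prop := ∀ x y, |dd v x| ≤ T → |dd v y| ≤ T →
  z x ≤ K * Real.exp (K / ph0 v y) * (1 + ‖x - y‖) ^ K * z y

/-- admissible test functions on the band of depth `T` -/
structure Test (v : EE n → ℝ) (T K : ℝ) (z : EE n → ℝ) : Prop where
  nonneg : ∀ x, 0 ≤ z x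
  meas : Measurable z
  lip : LocallyLipschitzOn {x | |dd v x| < T} z
  dec : ∃ A : ℝ, ∀ x, |dd v x| < T → z x ≤ A * ((1 + ‖x‖) ^ 10)⁻¹
  cmp : ∀ x y, |dd v x| < T → |dd v y| < T →
    z x ≤ K * Real.exp (K / ph0 v y) * (1 + ‖x - y‖) ^ K * z y

/-- **STAB**, the output of the block (proved for `4 ≤ n ≤ 9`) -/
def StabStmt (n : ℕ) : Prop := ∀ ε : ℝ, 0 < ε → ε ≤ 1 / 100 → ∃ e0 : ℝ, 0 < e0 ∧
  ∀ K T1 : ℝ, 1 ≤ K → ∃ T0 T2 τ0 : ℝ, T1 ≤ T0 ∧ 4 ≤ T0 ∧ T0 ≤ T2 ∧ 0 < τ0 ∧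
  ∀ v z : EE n → ℝ, Sol v → Stable v → Test v T2 K z →
    ENNReal.ofReal (1 - ε) * (∫⁻ x in {x | |dd v x| ≤ T0 ∧ tt v x ≤ τ0}, ENNReal.ofReal
        (psi v x ^ 2 * hsq (dd v) x * z x ^ 2)) +
      ENNReal.ofReal e0 * (∫⁻ x in {x | |dd v x| ≤ 1}, ENNReal.ofReal (tt v x * z x ^ 2)) +
      ENNReal.ofReal (1 - 2 * ε) * PG v z (Opp v ε T0 0) ≤
    ENNReal.ofReal (1 + ε) * ∫⁻ x in {x | |dd v x| < T2}, ENNReal.ofReal (psi v x ^ 2 * gsq z x)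

/-! ### leaves (prove them for `4 ≤ n` if the kernel bounds are needed) -/

/-- NSZ and D1: `Ker.dual` with `a = ψ N f` (use `pdv_eq_res`) and `a = ψ f` (`psi_eq_res`) -/
def NSZStmt (n : ℕ) : Prop := ∀ (v f : EE n → ℝ) (A : ℝ), Sol v → Stable v → Adm v f A →
  (LI v fun x y => gf v x y * (f x ^ 2 + f y ^ 2)) ≤
    (LI v fun x y => NN v x * NN v y * (f x - f y) ^ 2) ∧ 2 * Tt v f ≤ 3 * E0 v f

/-- PS, the parallel sum: `Q (G (s f) - u f) ≥ 0`, `u = G s`, `weak_res`, `energy_res` -/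
def PSStmt (n : ℕ) : Prop := ∀ (s f : EE n → ℝ) (A : ℝ) (K : ℝ≥0), Measurable s →
  (∀ x, 0 ≤ s x ∧ s x ≤ A) → Integrable s → (∀ x, |f x| ≤ A) → LipschitzWith K f →
  ∫⁻ x, ∫⁻ y, oR (s x * Gk 2 (y - x) * s y * (f x - f y) ^ 2) ≤
    2 * ∫⁻ x, oR (res 2 s x ^ 2 * gsq f x)

/-- RET, the radial retraction -/
def RetStmt (n : ℕ) : Prop := ∀ e l : ℝ, 0 < e → 0 < l → ∃ (l' : ℝ) (R : EE n → EE n), l ≤ l' ∧
  LipschitzWith 1 R ∧ (∀ᵐ p, DifferentiableAt ℝ R p) ∧ (∀ p, ‖p‖ ≤ l → R p = p) ∧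
  (∀ p, ‖R p‖ < l') ∧
  (∀ p y, ‖y‖ ≤ l → ‖R p - y‖ + (‖p‖ - ‖R p‖) / 2 ≤ ‖p - y‖) ∧ (∀ p, ‖R p‖ ≤ ‖p‖) ∧
  ∀ h : EE n → ℝ≥0∞, ∫⁻ p, oR (Real.exp (-(√2 * (‖p‖ - ‖R p‖)))) * h (R p) ≤
    oR (1 + e) * ∫⁻ p in ball 0 l', h p

/-- LOC: the parallel sum inequality for a function which is Lipschitz on a ball -/
def LocStmt (n : ℕ) : Prop := ∀ e l : ℝ, 0 < e → 0 < l → ∃ l' : ℝ, l ≤ l' ∧
  ∀ (c : EE n) (s z : EE n → ℝ) (A : ℝ) (K : ℝ≥0), Measurable s → (∀ x, 0 ≤ s x ∧ s x ≤ A) →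
    (∀ x, l ≤ dist x c → s x = 0) → LipschitzOnWith K z (ball c l') →
    ∫⁻ x, ∫⁻ y, oR (s x * Gk 2 (y - x) * s y * (z x - z y) ^ 2) ≤
      oR (2 * (1 + e)) * ∫⁻ x in ball c l', oR (res 2 s x ^ 2 * gsq z x)

/-- NEAR: the cost of the near pairs, sharp constant -/
def NearStmt (n : ℕ) : Prop := ∀ e T L : ℝ, 0 < e → 0 < L → ∃ T2 : ℝ, T < T2 ∧
  ∀ v z : EE n → ℝ, Sol v → Measurable z → LocallyLipschitzOn {x | |dd v x| < T2} z →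
    ∫⁻ x, ∫⁻ y, ind (|dd v x| ≤ T ∧ |dd v y| ≤ T ∧ dist x y ≤ L) *
        oR (SS v x * Gk 2 (y - x) * SS v y * (z x - z y) ^ 2) ≤
      oR (2 * (1 + e)) * ∫⁻ x in {x | |dd v x| < T2}, oR (psi v x ^ 2 * gsq z x)

/-- PHI: `0 = G ((2 - Δ) g) (x)` for `g = ψ pf ε |n - n x|²` -/
def PhiStmt (n : ℕ) : Prop := ∀ (v : EE n → ℝ) (ε : ℝ) (x : EE n), Sol v → 0 < ε →
  ∫⁻ y, oR (Gk 2 (y - x) * (2 * psi v y * hsq (dd v) y *
      (ε / √(ε ^ 2 + ‖nn v y - nn v x‖ ^ 2)) ^ 3)) ≤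
    ∫⁻ y, oR (Gk 2 (y - x) * (psi v y ^ 2 *
      (3 * pf ε (‖nn v y - nn v x‖ ^ 2) + 2 * ε * tt v y)))

/-- BG: the gain of `|B|²` -/
def BGStmt (n : ℕ) : Prop := ∀ e T0 : ℝ, 0 < e → e < 1 → ∃ L1 : ℝ, 0 < L1 ∧
  ∀ ε δ : ℝ, 0 < ε → 0 < δ → ∃ τ0 : ℝ, 0 < τ0 ∧ ∀ (v f : EE n → ℝ) (T : ℝ), Sol v → Measurable f →
    T0 + L1 ≤ T →
    oR (1 - e) * (∫⁻ x in {x | |dd v x| ≤ T0 ∧ tt v x ≤ τ0},
        oR (psi v x ^ 2 * hsq (dd v) x * f x ^ 2)) ≤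
      (∫⁻ x, ∫⁻ y, ind (|dd v x| ≤ T) *
        (kk v x y * oR (9 / 2 * pf ε (‖nn v y - nn v x‖ ^ 2) * f x ^ 2))) +
      oR (3 * ε) * Tt v f + oR δ * E0 v f

/-- DEEP: extension of the test function to the deep points: for `T < |d y|` take the average of
`z` against `1_{|d m| ≤ 1} ψ(m)² exp (-2 |y - m|)` -/
def DeepStmt (n : ℕ) : Prop := ∀ δ : ℝ, 0 < δ → ∃ T1 : ℝ, 1 ≤ T1 ∧ ∀ (T A : ℝ) (v z : EE n → ℝ),
  T1 ≤ T → Sol v → Measurable z → (∀ x, |dd v x| ≤ T → 0 ≤ z x ∧ z x ≤ A) →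
  IntegrableOn z {x | |dd v x| ≤ T} →
  ∃ f : EE n → ℝ, Adm v f A ∧ (∀ x, |dd v x| ≤ T → f x = z x) ∧
    Ec v f (fun _ y => T < |dd v y|) ≤ oR δ * E0 v f

/-- LENS: far pairs with a zero in the lens are absorbed in the full form -/
def LensStmt (n : ℕ) : Prop := ∀ c δ : ℝ, 0 < c → 0 < δ → ∃ L0 : ℝ, ∀ L, L0 ≤ L →
  ∀ v f : EE n → ℝ, Sol v → Measurable f →
    Ec v f (fun x y => L < dist x y ∧ Lens v c x y) ≤ oR δ * E0 v f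

/-- GEO: two flat points with an empty lens are opposite -/
def GeoStmt (n : ℕ) : Prop := ∀ K0 : ℝ, 0 < K0 → ∃ c : ℝ, 0 < c ∧ ∀ T : ℝ, ∃ L0 : ℝ, 0 < L0 ∧
  ∀ (v : EE n → ℝ) (x y : EE n), Sol v → |dd v x| ≤ T → |dd v y| ≤ T → L0 ≤ dist x y →
    1 / 2 ≤ NN v x → 1 / 2 ≤ NN v y → Flat v (K0 / dist x y) x → Flat v (K0 / dist x y) y →
    ¬ Lens v c x y → ⟪nn v x, nn v y⟫ ≤ -1 / 8

/-- TL0: crude lower bound of `t` at all depths (Taylor, `|B|² ≤ C t`, `HKStmt.har`) -/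
def TL0Stmt (n : ℕ) : Prop := ∃ C : ℝ, 1 ≤ C ∧ ∀ (v : EE n → ℝ) (x : EE n) (κ : ℝ), Sol v → 0 < κ →
  ¬ Flat v κ x → Real.exp (-(C / κ) - C) ≤ tt v x

/-- FAR: far pairs of the band which are not opposite (from LENS, GEO, TL0, `M.flatU'`,
`M.flat_iff`) -/
def FarStmt (n : ℕ) : Prop := ∀ K T δ δ' : ℝ, 1 ≤ K → 0 < δ → 0 < δ' → ∃ L : ℝ, 0 < L ∧
  ∀ v f : EE n → ℝ, Sol v → Stable v → Measurable f → (∀ x, 0 ≤ f x) → Cmp v f K T →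
    Ec v f (fun x y => |dd v x| ≤ T ∧ |dd v y| ≤ T ∧ L < dist x y ∧
      -1 / 8 < ⟪nn v x, nn v y⟫) ≤ oR δ * E0 v f + oR δ' * It v f T

/-- TG: `G (ψ² t) ≥ c t` on the band (Harnack for `t`) -/
def TGStmt (n : ℕ) : Prop := ∀ T : ℝ, ∃ c : ℝ, 0 < c ∧ ∀ v f : EE n → ℝ, Sol v → Measurable f →
  oR c * It v f T ≤ Tt v f

end

end Crest.Agent.N067.S
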