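import Crest.Agent.N067.S.Defs

/-!
# Row 67, block STAB (helper41): the radial retraction
-/

set_option autoImplicit false

open MeasureTheory Laplacian InnerProductSpace Topology Filter Set Metric
open scoped RealInnerProductSpace ContDiff Gradient ENNReal NNReal

namespace Crest.Agent.N067.S

open Crest.Agent.R077

noncomputable section

variable {n : ℕ}

namespace Rt

theorem det_id_add (l : EE n →L[ℝ] ℝ) (v : EE n) :
    (ContinuousLinearMap.id ℝ (EE n) + l.smulRight v).det = 1 + l v := by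
  classical
  let b := Module.finBasis ℝ (EE n)
  rw [ContinuousLinearMap.det, ← LinearMap.det_toMatrix b]
  have h1 : ((ContinuousLinearMap.id ℝ (EE n) + l.smulRight v : EE n →L[ℝ] EE n) :
      EE n →ₗ[ℝ] EE n) = LinearMap.id + (l : EE n →ₗ[ℝ] ℝ).smulRight v := by
    ext x; simp
  rw [h1, map_add, LinearMap.toMatrix_id, LinearMap.toMatrix_smulRight,
    Matrix.vecMulVec_eq Unit, Matrix.det_one_add_replicateCol_mul_replicateRow]
  congr 1
  conv_rhs => rw [← b.sum_repr v]
  simp only [_root_.map_sum, map_smul, smul_eq_mul, dotProduct, Function.comp_apply,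
    ContinuousLinearMap.coe_coe, mul_comm]

/-- the radial profile -/
def ro (a η r : ℝ) : ℝ := if r ≤ a then r else a + (r - a) / (1 + η * (r - a))

/-- the retraction -/
def RR (a η : ℝ) (p : EE n) : EE n := (ro a η ‖p‖ / ‖p‖) • p

variable {a η r s : ℝ}

theorem ro_of_le (h : r ≤ a) : ro a η r = r := if_pos h

theorem ro_of_ge (h : a ≤ r) : ro a η r = a + (r - a) / (1 + η * (r - a)) := by
  rcases h.eq_or_lt with rfl | h
  · simp [ro]
  · exact if_neg (not_le.2 h)

theorem ro_incr (hη : 0 < η) (h : s < r) : 0 < ro a η r - ro a η s ∧ ro a η r - ro a η s ≤ r - s := by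
  have key : ∀ {s r : ℝ}, a ≤ s → s < r →
      0 < ro a η r - ro a η s ∧ ro a η r - ro a η s ≤ r - s := fun {s r} hs h => by
    have h1 : 0 ≤ η * (s - a) := mul_nonneg hη.le (by linarith)
    have h2 : 0 ≤ η * (r - a) := mul_nonneg hη.le (by linarith)
    have e : ro a η r - ro a η s = (r - s) / ((1 + η * (r - a)) * (1 + η * (s - a))) := by
      rw [ro_of_ge hs, ro_of_ge (hs.trans h.le), add_sub_add_left_eq_sub,
        div_sub_div _ _ (by positivity) (by positivity)]
      congr 1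
      ring
    rw [e]
    exact ⟨div_pos (by linarith) (by positivity), div_le_self (by linarith) (by nlinarith)⟩
  rcases le_or_gt r a with hr | hr
  · rw [ro_of_le hr, ro_of_le (h.le.trans hr)]
    exact ⟨by linarith, le_rfl⟩
  rcases le_or_gt a s with hs | hs
  · exact key hs h
  · have := key le_rfl hr
    rw [ro_of_le hs.le]
    rw [ro_of_le le_rfl] at this
    constructor <;> linarith [this.1, this.2]

theorem ro_bd (ha : 0 ≤ a) (hη : 0 < η) (hr : 0 ≤ r) : 0 ≤ ro a η r ∧ ro a η r ≤ r := by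
  rcases hr.eq_or_lt with rfl | hr
  · rw [ro_of_le ha]; exact ⟨le_rfl, le_rfl⟩
  · have := ro_incr (a := a) hη hr
    rw [ro_of_le ha] at this
    constructor <;> linarith [this.1, this.2]

theorem ro_lt (hη : 0 < η) : ro a η r < a + 1 / η := by
  have h0 : 0 < 1 / η := by positivity
  rcases le_or_gt r a with hr | hr
  · rw [ro_of_le hr]; linarith
  · have h2 : 0 ≤ η * (r - a) := mul_nonneg hη.le (by linarith)
    rw [ro_of_ge hr.le, add_lt_add_iff_left, div_lt_div_iff₀ (by positivity) hη]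
    linarith

theorem coef (ha : 0 ≤ a) (hη : 0 < η) (p : EE n) :
    0 ≤ ro a η ‖p‖ / ‖p‖ ∧ ro a η ‖p‖ / ‖p‖ ≤ 1 ∧ ro a η ‖p‖ / ‖p‖ * ‖p‖ = ro a η ‖p‖ := by
  have h := ro_bd ha hη (norm_nonneg p)
  refine ⟨div_nonneg h.1 (norm_nonneg p), div_le_one_of_le₀ h.2 (norm_nonneg p), ?_⟩
  rcases (norm_nonneg p).eq_or_lt with h0 | h0
  · rw [← h0, ro_of_le ha, mul_zero]
  · field_simp

theorem norm_RR (ha : 0 ≤ a) (hη : 0 < η) (p : EE n) : ‖RR a η p‖ = ro a η ‖p‖ := by
  rw [RR, norm_smul, Real.norm_of_nonneg (coef ha hη p).1, (coef ha hη p).2.2]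

theorem RR_of_le {p : EE n} (h : ‖p‖ ≤ a) : RR a η p = p := by
  rw [RR, ro_of_le h]
  rcases eq_or_ne p 0 with rfl | h0
  · simp
  · rw [div_self (norm_ne_zero_iff.2 h0), one_smul]

theorem lip_RR (ha : 0 ≤ a) (hη : 0 < η) : LipschitzWith 1 (RR a η : EE n → EE n) := by
  refine LipschitzWith.of_dist_le_mul fun p q => ?_
  rw [NNReal.coe_one, one_mul, dist_eq_norm, dist_eq_norm]
  refine abs_le_of_sq_le_sq' ?_ (norm_nonneg _) |>.2
  obtain ⟨a0, a1, a2⟩ := coef ha hη p
  obtain ⟨b0, b1, b2⟩ := coef ha hη q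
  have h1 : (ro a η ‖p‖ - ro a η ‖q‖) ^ 2 ≤ (‖p‖ - ‖q‖) ^ 2 := by
    rcases lt_trichotomy ‖p‖ ‖q‖ with h | h | h
    · have := ro_incr (a := a) hη h; nlinarith [this.1, this.2]
    · rw [h]; simp
    · have := ro_incr (a := a) hη h; nlinarith [this.1, this.2]
  have h2 := real_inner_le_norm p q
  rw [norm_sub_sq_real, norm_sub_sq_real, norm_RR ha hη, norm_RR ha hη, RR, RR, inner_smul_left,
    inner_smul_right]
  set α := ro a η ‖p‖ / ‖p‖
  set β := ro a η ‖q‖ / ‖q‖
  rw [← a2, ← b2] at h1 ⊢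
  have h3 : α * β ≤ 1 := mul_le_one₀ a1 b0 b1
  have h4 := mul_nonneg (sub_nonneg.2 h3) (sub_nonneg.2 h2)
  simp only [conj_trivial]
  nlinarith

theorem geo {l : ℝ} (hl : 0 ≤ l) (hη : 0 < η) (p y : EE n) (hy : ‖y‖ ≤ l) :
    ‖RR (3 * l) η p - y‖ + (‖p‖ - ‖RR (3 * l) η p‖) / 2 ≤ ‖p - y‖ := by
  have ha : 0 ≤ 3 * l := by linarith
  rcases le_or_gt ‖p‖ (3 * l) with h | h
  · rw [RR_of_le h]; simp
  obtain ⟨a0, a1, a2⟩ := coef ha hη p
  have h1 : 3 * l ≤ ro (3 * l) η ‖p‖ := by
    have := (ro_incr (a := 3 * l) hη h).1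
    rw [ro_of_le le_rfl] at this
    linarith
  have h2 : ‖RR (3 * l) η p - y‖ ≤ ro (3 * l) η ‖p‖ + l :=
    (norm_sub_le _ _).trans (by rw [norm_RR ha hη]; linarith)
  have h3 : ⟪y, p⟫ ≤ l * ‖p‖ :=
    (real_inner_le_norm y p).trans (mul_le_mul_of_nonneg_right hy (norm_nonneg p))
  set α := ro (3 * l) η ‖p‖ / ‖p‖ with hα
  have e : p - y = (RR (3 * l) η p - y) + (1 - α) • p := by
    rw [RR, ← hα, sub_smul, one_smul]; abel
  have e2 : ⟪RR (3 * l) η p - y, (1 - α) • p⟫ = (1 - α) * (α * ‖p‖ ^ 2 - ⟪y, p⟫) := by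
    rw [inner_smul_right, inner_sub_left, RR, ← hα, inner_smul_left, real_inner_self_eq_norm_sq]
    simp
  have e3 : ‖(1 - α) • p‖ = (1 - α) * ‖p‖ := by
    rw [norm_smul, Real.norm_of_nonneg (by linarith)]
  refine abs_le_of_sq_le_sq' ?_ (norm_nonneg _) |>.2
  rw [e, norm_add_sq_real, e2, e3, norm_RR ha hη]
  rw [← a2] at h1 h2 ⊢
  have h4 : 0 ≤ (1 - α) * ‖p‖ := mul_nonneg (by linarith) (norm_nonneg p)
  have h5 := mul_le_mul_of_nonneg_left h3 (sub_nonneg.2 a1)
  have h6 := mul_le_mul_of_nonneg_left (show ‖RR (3 * l) η p - y‖ ≤ 2 * (α * ‖p‖ - l) by linarith) h4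
  nlinarith

theorem deriv_RR (ha : 0 < a) (hη : 0 < η) {p : EE n} (h : a < ‖p‖) :
    ∃ D : EE n →L[ℝ] EE n, HasFDerivAt (RR a η) D p ∧
      ((1 + η * (‖p‖ - a)) ^ (n + 2))⁻¹ ≤ |D.det| := by
  have hr : 0 < ‖p‖ := ha.trans h
  have hp : p ≠ 0 := norm_pos_iff.1 hr
  set r := ‖p‖ with hr'
  have hw : 1 ≤ 1 + η * (r - a) := by nlinarith
  set w := 1 + η * (r - a) with hw'
  have d1 : HasDerivAt (fun r => ro a η r) (1 / w ^ 2) r := by
    have h1 : HasDerivAt (fun r => r - a) 1 r := (hasDerivAt_id r).sub_const a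
    have h2 := ((h1.div ((h1.const_mul η).const_add 1) (by positivity)).const_add a)
    refine (h2.congr_deriv ?_).congr_of_eventuallyEq ?_
    · rw [← hw']; field_simp; rw [hw']; ring
    · filter_upwards [Ioi_mem_nhds h] with s hs using ro_of_ge (le_of_lt hs)
  have d2 := d1.div (hasDerivAt_id r) hr.ne'
  have d3 : DifferentiableAt ℝ (fun q : EE n => ro a η ‖q‖ / ‖q‖) p :=
    DifferentiableAt.comp (g := fun r => ro a η r / r) p d2.differentiableAt
      (differentiableAt_id.norm ℝ hp)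
  set g := ro a η r / r with hg
  set L := fderiv ℝ (fun q : EE n => ro a η ‖q‖ / ‖q‖) p with hL
  have hLp : L p = 1 / w ^ 2 - g := by
    have e1 : HasDerivAt (fun t : ℝ => t • p) p 1 := by
      simpa using (hasDerivAt_id (1 : ℝ)).smul_const p
    have e2 := (show HasFDerivAt _ L ((1 : ℝ) • p) by
      rw [one_smul]; exact d3.hasFDerivAt).comp_hasDerivAt (1 : ℝ) e1
    have e3 : HasDerivAt (fun t : ℝ => t * r) r 1 := by
      simpa using (hasDerivAt_id (1 : ℝ)).mul_const r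
    have e4 := (show HasDerivAt _ _ (1 * r) by rw [one_mul]; exact d2).comp (1 : ℝ) e3
    have e5 := e2.unique (e4.congr_of_eventuallyEq (by
      filter_upwards [Ioi_mem_nhds (zero_lt_one (α := ℝ))] with t ht
      simp [norm_smul, abs_of_pos (show 0 < t from ht), hr']))
    rw [e5, hg]
    simp only [id]
    field_simp
  have hg1 : g ≤ 1 := (coef ha.le hη p).2.1
  have hgw : 1 / w ≤ g := by
    rw [hg, ro_of_ge h.le, ← hw', div_le_div_iff₀ (by positivity) hr, add_mul,
      div_mul_cancel₀ _ (by positivity)]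
    nlinarith
  have hg0 : 0 < g := lt_of_lt_of_le (by positivity) hgw
  refine ⟨g • (ContinuousLinearMap.id ℝ (EE n) + (g⁻¹ • L).smulRight p), ?_, ?_⟩
  · refine (d3.hasFDerivAt.smul (hasFDerivAt_id p)).congr_fderiv ?_
    ext1 h
    simp [← hL, ← hr', ← hg, smul_smul, hg0.ne']
  · have e : (g • (ContinuousLinearMap.id ℝ (EE n) + (g⁻¹ • L).smulRight p)).det =
        g ^ n * (1 + g⁻¹ * L p) := by
      rw [ContinuousLinearMap.det, ContinuousLinearMap.toLinearMap_smul, LinearMap.det_smul,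
        finrank_euclideanSpace_fin]
      congr 1
      exact det_id_add _ _
    rw [e, hLp]
    refine le_trans ?_ (le_abs_self _)
    have e2 : 1 + g⁻¹ * (1 / w ^ 2 - g) = g⁻¹ * (1 / w ^ 2) := by field_simp; ring
    have h1 : 1 ≤ g⁻¹ := one_le_inv_iff₀.2 ⟨hg0, hg1⟩
    rw [e2, pow_add, mul_inv, ← inv_pow, ← one_div w, ← one_div (w ^ 2)]
    exact mul_le_mul (pow_le_pow_left₀ (by positivity) hgw n)
      (le_mul_of_one_le_left (by positivity) h1) (by positivity) (by positivity)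

theorem num {e : ℝ} (he : 0 < e) (N : ℕ) : ∃ η : ℝ, 0 < η ∧ ∀ s : ℝ, 0 ≤ s →
    Real.exp (-(√2 * (s - s / (1 + η * s)))) ≤ (1 + e) * ((1 + η * s) ^ N)⁻¹ := by
  have hl : 0 < Real.log (1 + e) := Real.log_pos (by linarith)
  have hN : (0 : ℝ) ≤ N := Nat.cast_nonneg N
  set η : ℝ := min (1 / (2 * N + 1)) (Real.log (1 + e) / (2 * N ^ 2 + 1)) with hη
  have h0 : 0 < η := lt_min (by positivity) (by positivity)
  have h1 : η * (2 * N + 1) ≤ 1 := (le_div_iff₀ (by positivity)).1 (min_le_left _ _)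
  have h2 : η * (2 * N ^ 2 + 1) ≤ Real.log (1 + e) :=
    (le_div_iff₀ (by positivity)).1 (min_le_right _ _)
  refine ⟨η, h0, fun s hs => ?_⟩
  have hx : 0 ≤ η * s := mul_nonneg h0.le hs
  have h3 : (1 + η * s) ^ N ≤ Real.exp (N * (η * s)) := by
    rw [Real.exp_nat_mul]
    exact pow_le_pow_left₀ (by positivity) (by linarith [Real.add_one_le_exp (η * s)]) N
  have e1 : s - s / (1 + η * s) = η * s * (s / (1 + η * s)) := by field_simp; ring
  have h4 : 0 ≤ s - s / (1 + η * s) := by rw [e1]; positivity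
  have h5 : (1 : ℝ) ≤ √2 := Real.one_le_sqrt.2 one_le_two
  have h6 : N * (η * s) ≤ Real.log (1 + e) + √2 * (s - s / (1 + η * s)) := by
    have h7 := le_mul_of_one_le_left h4 h5
    rcases le_total s (2 * N) with h | h
    · nlinarith [mul_le_mul_of_nonneg_left h (mul_nonneg hN h0.le)]
    · have h8 : N ≤ s / (1 + η * s) := by
        rw [le_div_iff₀ (by positivity)]
        nlinarith [mul_le_mul_of_nonneg_right h1 hs]
      nlinarith [mul_le_mul_of_nonneg_left h8 hx]
  rw [← div_eq_mul_inv, le_div_iff₀ (by positivity)]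
  calc _ ≤ Real.exp (-(√2 * (s - s / (1 + η * s)))) * Real.exp (N * (η * s)) := by gcongr
    _ ≤ Real.exp (Real.log (1 + e)) := by rw [← Real.exp_add]; gcongr; linarith
    _ = 1 + e := Real.exp_log (by linarith)

end Rt

open Rt in
theorem ret (n : ℕ) : RetStmt n := by
  intro e l he hl
  obtain ⟨η, hη, hnum⟩ := num he (n + 2)
  have ha : 0 < 3 * l := by linarith
  have h0 : 0 < 1 / η := by positivity
  refine ⟨3 * l + 1 / η, RR (3 * l) η, by linarith, lip_RR ha.le hη, ?_,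
    fun p hp => RR_of_le (by linarith), fun p => (norm_RR ha.le hη p).trans_lt (ro_lt hη),
    geo hl.le hη, fun p => (norm_RR ha.le hη p).trans_le (ro_bd ha.le hη (norm_nonneg p)).2,
    fun h => ?_⟩
  · have hs : ∀ᵐ p : EE n, p ∉ sphere (0 : EE n) (3 * l) :=
      measure_eq_zero_iff_ae_notMem.1 (Measure.addHaar_sphere_of_ne_zero _ _ ha.ne')
    filter_upwards [hs] with p hp
    rcases lt_or_gt_of_ne (mt mem_sphere_zero_iff_norm.2 hp) with h | h
    · refine differentiableAt_id.congr_of_eventuallyEq ?_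
      filter_upwards [(isOpen_lt continuous_norm continuous_const).mem_nhds h] with q hq
      exact RR_of_le (le_of_lt hq)
    · obtain ⟨D, hD, -⟩ := deriv_RR ha hη h
      exact hD.differentiableAt
  set B := closedBall (0 : EE n) (3 * l) with hB
  have mB : MeasurableSet B := measurableSet_closedBall
  have hc : ∀ p : EE n, p ∈ Bᶜ ↔ 3 * l < ‖p‖ := fun p => by simp [hB]
  choose! D hD using fun (p : EE n) (h : 3 * l < ‖p‖) => deriv_RR (n := n) ha hη h
  have hinj : InjOn (RR (3 * l) η) Bᶜ := fun p hp q hq hpq => by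
    have h1 : ro (3 * l) η ‖p‖ = ro (3 * l) η ‖q‖ := by
      rw [← norm_RR ha.le hη, hpq, norm_RR ha.le hη]
    have h2 : ‖p‖ = ‖q‖ := by
      rcases lt_trichotomy ‖p‖ ‖q‖ with h | h | h
      · linarith [(ro_incr (a := 3 * l) hη h).1]
      · exact h
      · linarith [(ro_incr (a := 3 * l) hη h).1]
    have hq' := (hc q).1 hq
    have h3 := (ro_incr (a := 3 * l) hη hq').1
    rw [ro_of_le le_rfl] at h3
    rw [RR, RR, h2] at hpq
    exact smul_right_injective _ (div_pos (by linarith) (by linarith)).ne' hpq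
  have cv := lintegral_image_eq_lintegral_abs_det_fderiv_mul volume mB.compl
    (fun p hp => (hD p ((hc p).1 hp)).1.hasFDerivWithinAt) hinj h
  have him : RR (3 * l) η '' Bᶜ ⊆ ball 0 (3 * l + 1 / η) \ B := by
    rintro _ ⟨p, hp, rfl⟩
    have h3 := (ro_incr (a := 3 * l) hη ((hc p).1 hp)).1
    rw [ro_of_le le_rfl] at h3
    exact ⟨mem_ball_zero_iff.2 ((norm_RR ha.le hη p).trans_lt (ro_lt hη)),
      (hc _).2 (by rw [norm_RR ha.le hη]; linarith)⟩
  have hsub : B ⊆ ball 0 (3 * l + 1 / η) := closedBall_subset_ball (by linarith)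
  rw [← lintegral_add_compl _ mB, ← union_sdiff_cancel hsub,
    lintegral_union (measurableSet_ball.diff mB) disjoint_sdiff_right, mul_add]
  have h1e : (1 : ℝ≥0∞) ≤ oR (1 + e) := ENNReal.one_le_ofReal.2 (by linarith)
  refine add_le_add ?_ ?_
  · refine le_trans (le_of_eq ?_) (le_mul_of_one_le_left' h1e)
    refine setLIntegral_congr_fun mB fun p hp => ?_
    simp [RR_of_le (mem_closedBall_zero_iff.1 hp)]
  · refine le_trans ?_ (mul_le_mul_right (lintegral_mono_set him) _)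
    rw [cv, ← lintegral_const_mul' _ _ ENNReal.ofReal_ne_top]
    refine setLIntegral_mono' mB.compl fun p hp => ?_
    have hp' := (hc p).1 hp
    rw [← mul_assoc, ← ENNReal.ofReal_mul (by linarith)]
    refine mul_le_mul_left (ENNReal.ofReal_le_ofReal ?_) _
    refine le_trans (le_of_eq ?_) ((hnum (‖p‖ - 3 * l) (by linarith)).trans
      (mul_le_mul_of_nonneg_left (hD p hp').2 (by linarith)))
    rw [norm_RR ha.le hη, ro_of_ge hp'.le]
    congr 3
    ring

end

end Crest.Agent.N067.S
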