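import Crest.Agent.N067.S.Top0

/-!
Row 67, block STAB (helper8): the assembly, `stab_of`.
-/

set_option autoImplicit false

open MeasureTheory Laplacian InnerProductSpace Topology Filter Set Metric
open scoped RealInnerProductSpace ContDiff Gradient ENNReal

namespace Crest.Agent.N067.S

open Crest.Agent.R077 Crest.Agent.N067.Ker Crest.Agent.N067.M Crest.Agent.N067.S.Nz

noncomputable section

namespace Tp

variable {n : ℕ} {v f z : EE n → ℝ} {A : ℝ}

theorem rE_nonneg (v f : EE n → ℝ) : 0 ≤ rE v f := II_nonneg v fun _ => sq_nonneg _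

theorem rT_nonneg (hv : Sol v) (f : EE n → ℝ) : 0 ≤ rT v f :=
  II_nonneg v fun _ => mul_nonneg (hv.tt_nonneg _) (sq_nonneg _)

theorem rG_nonneg (v f : EE n → ℝ) (T : ℝ) : 0 ≤ rG v f T := II_nonneg v (G_nonneg v f T)

theorem rP_nonneg (v f : EE n → ℝ) {s : ℝ} (hs : 0 < s) : 0 ≤ rP v f s :=
  II_nonneg v fun _ => mul_nonneg (pf_nonneg hs (sq_nonneg _)) (sq_nonneg _)

theorem two_le_SS (v : EE n → ℝ) (x : EE n) : 2 * psi v x ^ 2 ≤ SS v x := by
  unfold SS
  nlinarith [mul_nonneg (sq_nonneg (psi v x)) (sub_nonneg.2 (tt_le_one v x))]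

theorem three_le_SS (hv : Sol v) (x : EE n) : 3 * NN v x * psi v x ^ 2 ≤ SS v x := by
  have h1 := NN_le1 hv x
  have h2 : 3 * NN v x ≤ 3 - tt v x := by
    change _ ≤ 3 - (1 - NN v x ^ 2)
    nlinarith
  unfold SS
  nlinarith [mul_le_mul_of_nonneg_left h2 (sq_nonneg (psi v x))]

/-- the near cost dominates the weighted near forms -/
theorem near_le {T L : ℝ} (hz : ∀ x, |dd v x| ≤ T → f x = z x) {c : EE n → ℝ} (h0 : ∀ x, 0 ≤ c x)
    (hc : ∀ x, c x * psi v x ^ 2 ≤ SS v x) :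
    LI v (fun x y => ri (PN v T L x y) * (c x * c y) * (f x - f y) ^ 2) ≤
      ∫⁻ x, ∫⁻ y, ind (|dd v x| ≤ T ∧ |dd v y| ≤ T ∧ dist x y ≤ L) *
        oR (SS v x * Gk 2 (y - x) * SS v y * (z x - z y) ^ 2) := by
  refine lintegral_mono fun x => lintegral_mono fun y => ?_
  by_cases h : PN v T L x y
  · have h' : |dd v x| ≤ T ∧ |dd v y| ≤ T ∧ dist x y ≤ L := h
    have hG := Gk_nonneg 2 (y - x)
    simp only [ind_of h', ri_of h, one_mul, kk, hz x h.1, hz y h.2.1]
    rw [← ENNReal.ofReal_mul (by positivity)]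
    refine ENNReal.ofReal_le_ofReal ?_
    have h1 := h0 x
    have h2 := h0 y
    have h3 : 0 ≤ SS v x := le_trans (by positivity) (hc x)
    calc _ = c x * psi v x ^ 2 * Gk 2 (y - x) * (c y * psi v y ^ 2) * (z x - z y) ^ 2 := by ring
      _ ≤ _ := by gcongr <;> exact hc _
  · simp [ri_of_not h]

theorem PG_le (hv : Sol v) (hf : Ad v f A) {T T0 ε : ℝ} (hT : T0 ≤ T) (hε : ε ≤ 1 / 100)
    (hz : ∀ x, |dd v x| ≤ T → f x = z x) :
    oR (1 - ε) * PG v z (Opp v ε T0 0) ≤ oR (9 / 2 * rG v f T) := by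
  have mO : ∀ x, MeasurableSet {y | Opp v ε T0 0 x y} := fun x => by
    have h : Continuous (nn v) := St.continuous_grad (hv.dd_cd 1)
    have h' := md hv
    exact (MeasurableSet.const _).inter ((measurableSet_le h'.abs measurable_const).inter
      ((measurableSet_le measurable_const (measurable_const.sub measurable_id).norm).inter
        (measurableSet_le (f := fun y => ⟪nn v x, nn v y⟫) (continuous_const.inner h).measurable
          measurable_const)))
  rw [rG, ← II_const_mul, oR, oR, ← LI_eq hv hf ((domG hv hf T).cmul (9 / 2))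
    fun p => mul_nonneg (by norm_num) (G_nonneg v f T p), PG,
    ← lintegral_const_mul' _ _ ENNReal.ofReal_ne_top]
  refine lintegral_mono fun x => ?_
  simp only
  rw [← lintegral_const_mul' _ _ ENNReal.ofReal_ne_top]
  refine le_trans (setLIntegral_mono' (mO x) fun y hy => ?_) (setLIntegral_le_lintegral _ _)
  obtain ⟨h1, h2, -, h3⟩ := hy
  have hO : PO v T x y := ⟨h1.trans hT, h2.trans hT, by linarith⟩
  have hG := Gk_nonneg 2 (y - x)
  simp only [kk, ri_of hO, hz x hO.1, hz y hO.2.1, Gk_sub_comm 2 x y]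
  rw [← ENNReal.ofReal_mul (by linarith), ← ENNReal.ofReal_mul (by positivity)]
  refine ENNReal.ofReal_le_ofReal ?_
  have : 0 ≤ psi v x ^ 2 * Gk 2 (y - x) * psi v y ^ 2 * (z x + z y) ^ 2 := by positivity
  nlinarith [mul_le_mul_of_nonneg_right (show 1 - ε ≤ -⟪nn v x, nn v y⟫ by linarith) this]

theorem pf_int_le (hv : Sol v) (hf : Ad v f A) (T : ℝ) {s : ℝ} (hs : 0 < s) :
    ∫⁻ x, ∫⁻ y, ind (|dd v x| ≤ T) *
      (kk v x y * oR (9 / 2 * pf s (‖nn v y - nn v x‖ ^ 2) * f x ^ 2)) ≤ oR (9 / 2 * rP v f s) := by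
  rw [rP, ← II_const_mul, oR, ← LI_eq hv hf ((domP hv hf hs).cmul (9 / 2))
    fun p => mul_nonneg (by norm_num) (mul_nonneg (pf_nonneg hs (sq_nonneg _)) (sq_nonneg _))]
  refine lintegral_mono fun x => lintegral_mono fun y => ind_mul_le fun _ => ?_
  simp only [mul_assoc, le_refl]

theorem It_eq (hv : Sol v) {T Λ : ℝ} (h : Λ ≤ T) (hz : ∀ x, |dd v x| ≤ T → f x = z x) :
    ∫⁻ x in {x | |dd v x| ≤ Λ}, oR (tt v x * z x ^ 2) = It v f Λ := by
  rw [← lintegral_indicator (measurableSet_le (md hv).abs measurable_const)]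
  refine lintegral_congr fun x => ?_
  by_cases hx : |dd v x| ≤ Λ
  · rw [indicator_of_mem (show x ∈ {x | |dd v x| ≤ Λ} from hx), ind_of hx, one_mul,
      hz x (hx.trans h)]
  · rw [indicator_of_notMem (show x ∉ {x | |dd v x| ≤ Λ} from hx), ind_of_not hx, zero_mul]

theorem test_bd (h9 : n ≤ 9) (hv : Sol v) {T T2 K : ℝ} (hT : T < T2) (hz : Test v T2 K z) :
    ∃ A : ℝ, (∀ x, |dd v x| ≤ T → 0 ≤ z x ∧ z x ≤ A) ∧ IntegrableOn z {x | |dd v x| ≤ T} := by
  obtain ⟨A, hA⟩ := hz.dec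
  have h1 : ∀ x, |dd v x| ≤ T → z x ≤ |A| * ((1 + ‖x‖) ^ 10)⁻¹ := fun x hx =>
    (hA x (hx.trans_lt hT)).trans (mul_le_mul_of_nonneg_right (le_abs_self _) (by positivity))
  refine ⟨|A|, fun x hx => ⟨hz.nonneg x, (h1 x hx).trans (mul_le_of_le_one_right (abs_nonneg _)
    (inv_le_one_of_one_le₀ (one_le_pow₀ (by linarith [norm_nonneg x]))))⟩, ?_⟩
  have h2 : Integrable fun x : EE n => (1 + ‖x‖) ^ (-(10 : ℝ)) :=
    integrable_one_add_norm (by
      rw [finrank_euclideanSpace_fin]; exact_mod_cast Nat.lt_succ_of_le h9)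
  refine Integrable.mono' (h2.const_mul |A|).integrableOn hz.meas.aestronglyMeasurable ?_
  refine (ae_restrict_iff' (measurableSet_le (md hv).abs measurable_const)).2
    (Eventually.of_forall fun x hx => ?_)
  rw [Real.norm_of_nonneg (hz.nonneg x), Real.rpow_neg (by positivity)]
  exact_mod_cast h1 x hx

/-- the bookkeeping -/
theorem book {ε s a E T G P N N1 F D : ℝ} (hε : 0 < ε) (hε1 : ε ≤ 1 / 100) (hs : s = ε / 1000)
    (ha : 0 ≤ a) (hE : 0 ≤ E) (hG : 0 ≤ G) (h1 : E ≤ 8 * G + N1 + F + 2 * D)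
    (h2 : (1 - 16 * s) * G + P ≤ N + F + 2 * D + 6 * s * T + 4 * s * E) (h3 : T ≤ 3 / 2 * E)
    (h4 : 9 * N ≤ 2 * (1 + ε / 2) * a) (h5 : 4 * N1 ≤ 2 * (1 + ε / 2) * a)
    (h6 : F ≤ s * E + s * T) (h7 : D ≤ s * E) :
    9 / 2 * P + 3 * s * T + s * E + s * T + (1 - ε) * (9 / 2 * G) ≤ (1 + ε) * a := by
  have hs0 : 0 < s := by linarith
  have k1 : s * T ≤ 3 / 2 * (s * E) := by nlinarith
  have k2 : s * E ≤ E / 100 := by nlinarith
  have k3 : ε * a ≤ a / 100 := by nlinarith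
  have k4 : E ≤ 16 * G + 2 * a := by nlinarith
  have k5 : s * E ≤ 16 * (s * G) + 2 * (s * a) := by nlinarith
  have k6 : ε * G = 1000 * (s * G) := by rw [hs]; ring
  have k7 : ε * a = 1000 * (s * a) := by rw [hs]; ring
  have k8 : 0 ≤ s * G := by positivity
  have k9 : 0 ≤ s * a := by positivity
  nlinarith

end Tp

open Tp

theorem stab_of {n : ℕ} (h9 : n ≤ 9) (near : NearStmt n) (bg : BGStmt n) (deep : DeepStmt n)
    (far : FarStmt n) (tg : TGStmt n) : StabStmt n := by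
  intro ε hε hε1
  obtain ⟨s, hs⟩ : ∃ s, s = ε / 1000 := ⟨_, rfl⟩
  have hs0 : 0 < s := by linarith
  obtain ⟨c1, hc1, tg1⟩ := tg 1
  refine ⟨s * c1, by positivity, fun K T1 hK => ?_⟩
  obtain ⟨L1, hL1, bg⟩ := bg ε (max T1 4) hε (by linarith)
  obtain ⟨τ0, hτ0, bg⟩ := bg s s hs0 hs0
  obtain ⟨Td, hTd, deep⟩ := deep s hs0
  obtain ⟨T, hT1, hT2⟩ : ∃ T, max T1 4 + L1 ≤ T ∧ Td ≤ T := ⟨_, le_max_left _ _, le_max_right _ _⟩
  have hT0 : max T1 4 ≤ T := by linarith
  obtain ⟨cT, hcT, tgT⟩ := tg T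
  obtain ⟨L, hL, far⟩ := far K T s (s * cT) hK hs0 (by positivity)
  obtain ⟨T2, hT, near⟩ := near (ε / 2) T L (by linarith) hL
  refine ⟨max T1 4, T2, τ0, le_max_left _ _, le_max_right _ _, by linarith, hτ0,
    fun v z hv hst hz => ?_⟩
  obtain ⟨A, hA, hi⟩ := test_bd h9 hv hT hz
  obtain ⟨f, hf', hfz, deep⟩ := deep T A v z hT2 hv hz.meas hA hi
  have hf := ad_of_adm hf'
  specialize near v z hv hz.meas hz.lip
  specialize far v f hv hst hf'.meas hf'.nonneg fun x y hx hy => by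
    rw [hfz x hx, hfz y hy]; exact hz.cmp x y (hx.trans_lt hT) (hy.trans_lt hT)
  specialize bg v f T hv hf'.meas hT1
  specialize tg1 v f hv hf'.meas
  specialize tgT v f hv hf'.meas
  generalize ∫⁻ x in {x | |dd v x| < T2}, ENNReal.ofReal (psi v x ^ 2 * gsq z x) = a at near ⊢
  induction a with
  | top => rw [ENNReal.mul_top (by simp; linarith)]; exact le_top
  | coe a => ?_
  have ha : (0 : ℝ) ≤ a := a.2
  have hE := rE_nonneg v f
  have hT' := rT_nonneg hv f
  have hG := rG_nonneg v f T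
  have hP := rP_nonneg v f hs0
  have eE : E0 v f = oR (rE v f) := E0_eq hv hf
  have eT : Tt v f = oR (rT v f) := Tt_eq hv hf
  rw [← ENNReal.ofReal_coe_nnreal, ← ENNReal.ofReal_mul (by positivity)] at near ⊢
  have n1 : 9 * rN v f T L ≤ 2 * (1 + ε / 2) * a := by
    have h := (near_le (L := L) hfz (c := fun x => 3 * NN v x)
      (fun x => mul_nonneg zero_le_three (norm_nonneg _)) (three_le_SS hv)).trans near
    rw [← ENNReal.ofReal_le_ofReal_iff (by positivity), rN, ← II_const_mul,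
      ← LI_eq hv hf ((domN hv hf T L).cmul 9) fun p => mul_nonneg (by norm_num) (mul_nonneg
        (mul_nonneg (ri_nonneg _) (mul_nonneg (norm_nonneg _) (norm_nonneg _))) (sq_nonneg _))]
    refine le_trans (le_of_eq ?_) h
    congr 1
    funext x y
    ring
  have n2 : 4 * rC v f (PN v T L) ≤ 2 * (1 + ε / 2) * a := by
    have h := (near_le (L := L) hfz (c := fun _ => 2) (fun _ => zero_le_two)
      (two_le_SS v)).trans near
    rw [← ENNReal.ofReal_le_ofReal_iff (by positivity), rC, ← II_const_mul,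
      ← LI_eq hv hf ((domC hf (mPN hv T L)).cmul 4) fun p => mul_nonneg (by norm_num)
        (mul_nonneg (ri_nonneg _) (sq_nonneg _))]
    refine le_trans (le_of_eq ?_) h
    congr 1
    funext x y
    ring
  have n3 : rC v f (PF v T L) ≤ s * rE v f + s * rT v f := by
    rw [← ENNReal.ofReal_le_ofReal_iff (by positivity), ENNReal.ofReal_add (by positivity)
      (by positivity), ENNReal.ofReal_mul hs0.le, ENNReal.ofReal_mul hs0.le]
    refine (Ec_eq hv hf (mPF hv T L)).ge.trans (far.trans ?_)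
    rw [eE]
    unfold oR
    rw [ENNReal.ofReal_mul hs0.le, mul_assoc]
    exact add_le_add le_rfl (mul_le_mul' le_rfl (tgT.trans_eq eT))
  have n4 : rC v f (fun _ y => T < |dd v y|) ≤ s * rE v f := by
    rw [← ENNReal.ofReal_le_ofReal_iff (by positivity), ENNReal.ofReal_mul hs0.le]
    exact (Ec_eq hv hf (P := fun _ y => T < |dd v y|) (mPD hv T)).ge.trans
      (deep.trans_eq (by rw [eE]))
  have key := book hε hε1 hs ha hE hG (rE_le hv hf hf'.nonneg T L)
    (gain_le hv hst hf hf'.nonneg T L hs0) (d1 hv hst hf) n1 n2 n3 n4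
  refine le_trans ?_ (ENNReal.ofReal_le_ofReal key)
  have h1ε : 0 ≤ 1 - ε := by linarith
  rw [ENNReal.ofReal_add (by positivity) (by positivity),
    ENNReal.ofReal_add (by positivity) (by positivity)]
  refine add_le_add (add_le_add ?_ ?_) ?_
  · rw [ENNReal.ofReal_add (by positivity) (by positivity),
      ENNReal.ofReal_add (by positivity) (by positivity), ENNReal.ofReal_mul (p := 3 * s)
        (by positivity), ENNReal.ofReal_mul hs0.le]
    refine le_trans (le_of_eq ?_) (bg.trans ?_)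
    · congr 1
      refine setLIntegral_congr_fun ((measurableSet_le (md hv).abs measurable_const).inter
        (measurableSet_le hv.tt_sm.continuous.measurable measurable_const)) fun x hx => ?_
      simp only [hfz x (hx.1.trans hT0)]
    · rw [eE, eT]
      exact add_le_add (add_le_add (pf_int_le hv hf T hs0) le_rfl) le_rfl
  · rw [ENNReal.ofReal_mul hs0.le, ENNReal.ofReal_mul hs0.le, mul_assoc]
    refine mul_le_mul' le_rfl (le_trans (le_of_eq ?_) (tg1.trans_eq eT))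
    rw [← It_eq hv (by linarith [le_max_right T1 4]) hfz]
  · rw [ENNReal.ofReal_mul h1ε]
    refine le_trans ?_ (mul_le_mul' le_rfl (PG_le hv hf hT0 hε1 hfz))
    rw [← mul_assoc, oR, ← ENNReal.ofReal_mul h1ε]
    exact mul_le_mul' (ENNReal.ofReal_le_ofReal (by nlinarith)) le_rfl

/-- the master form -/
theorem mstab_of {n : ℕ} (h : StabStmt n) : M.StabStmt n := fun ε hε hε1 => by
  obtain ⟨e0, he0, h⟩ := h ε hε hε1
  refine ⟨e0, he0, fun K T1 hK => ?_⟩
  obtain ⟨T0, T2, τ0, h1, h2, h3, h4, h⟩ := h K T1 hK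
  exact ⟨T0, T2, τ0, h1, h2, h3, h4, fun v z hv hz => h v z hv.toSol hv.stab
    ⟨fun x => (hz.pos x).le, hz.meas, hz.lip, hz.dec, hz.cmp⟩⟩

end

end Crest.Agent.N067.S
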