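import Crest.Agent.N067.S.NSZ

/-!
Row 67, block STAB (helper8): the assembly, real part.  All pair integrals of the extended test
function `f` are finite, so the bookkeeping is done with the real numbers `II v _`.
-/

set_option autoImplicit false

open MeasureTheory Laplacian InnerProductSpace Topology Filter Set Metric
open scoped RealInnerProductSpace ContDiff Gradient ENNReal

namespace Crest.Agent.N067.S.Tp

open Crest.Agent.R077 Crest.Agent.N067.Ker Crest.Agent.N067.M Crest.Agent.N067.S.Nz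

noncomputable section

variable {n : ℕ} {v f : EE n → ℝ} {A : ℝ}

open Classical in
/-- real indicator -/
def ri (P : Prop) : ℝ := if P then 1 else 0

theorem ri_of {P : Prop} (h : P) : ri P = 1 := by simp [ri, h]

theorem ri_of_not {P : Prop} (h : ¬P) : ri P = 0 := by simp [ri, h]

theorem ri_nonneg (P : Prop) : 0 ≤ ri P := by unfold ri; split_ifs <;> simp

theorem abs_ri_le (P : Prop) : |ri P| ≤ 1 := by unfold ri; split_ifs <;> simp

theorem measurable_ri {α : Type*} [MeasurableSpace α] {P : α → Prop}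
    (h : MeasurableSet {a | P a}) : Measurable fun a => ri (P a) := by
  classical
  have : (fun a => ri (P a)) = fun a => if P a then (1 : ℝ) else 0 := by
    funext a; unfold ri; congr
  rw [this]
  exact Measurable.ite h measurable_const measurable_const

theorem ind_mul (P : Prop) (k : ℝ≥0∞) (a : ℝ) : ind P * (k * oR a) = k * oR (ri P * a) := by
  by_cases h : P
  · simp [ind_of h, ri_of h]
  · simp [ind_of_not h, ri_of_not h]

theorem Ec_eq (hv : Sol v) (hf : Ad v f A) {P : EE n → EE n → Prop}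
    (hP : MeasurableSet {p : EE n × EE n | P p.1 p.2}) :
    Ec v f P = oR (II v fun p => ri (P p.1 p.2) * (f p.1 - f p.2) ^ 2) := by
  rw [oR, ← LI_eq hv hf (hf.domd.bmul (measurable_ri hP) fun p => abs_ri_le _)
    fun p => mul_nonneg (ri_nonneg _) (sq_nonneg _)]
  simp only [Ec, LI, ind_mul]

theorem E0_eq (hv : Sol v) (hf : Ad v f A) : E0 v f = oR (II v fun p => (f p.1 - f p.2) ^ 2) :=
  LI_eq hv hf hf.domd fun _ => sq_nonneg _

theorem domt (hv : Sol v) (hf : Ad v f A) : Dom f fun p => tt v p.2 * f p.1 ^ 2 :=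
  hf.dom11.bmul (c := fun p => tt v p.2) (hv.tt_sm.continuous.measurable.comp measurable_snd)
    fun p => abs_tt_le hv p.2

theorem Tt_eq (hv : Sol v) (hf : Ad v f A) : Tt v f = oR (II v fun p => tt v p.2 * f p.1 ^ 2) :=
  LI_eq hv hf (domt hv hf) fun _ => mul_nonneg (hv.tt_nonneg _) (sq_nonneg _)

/-! ### the profile -/

theorem pf_nonneg {ε s : ℝ} (hε : 0 < ε) (hs : 0 ≤ s) : 0 ≤ pf ε s :=
  mul_nonneg (by positivity) (sub_nonneg.2 (Real.le_sqrt_of_sq_le (by linarith)))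

theorem pf_le {ε u b : ℝ} (hε : 0 < ε) (hu : 0 ≤ u) (hb : 0 ≤ b) :
    pf ε (u ^ 2 + b) ≤ 2 * ε * u + b := by
  have h1 : √(ε ^ 2 + (u ^ 2 + b)) ≤ ε + u + b / (2 * ε) := by
    refine Real.sqrt_le_iff.2 ⟨by positivity, ?_⟩
    have h2 : 0 ≤ b / (2 * ε) := by positivity
    have h3 : 2 * ε * (b / (2 * ε)) = b := by field_simp
    nlinarith [mul_nonneg hε.le hu, mul_nonneg hu h2, sq_nonneg (b / (2 * ε))]
  have h3 : 2 * ε * (b / (2 * ε)) = b := by field_simp
  unfold pf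
  nlinarith

theorem NN_le1 (hv : Sol v) (x : EE n) : NN v x ≤ 1 := hv.norm_grad_dd_le x

theorem pf_le_four (hv : Sol v) {ε : ℝ} (hε : 0 < ε) (x y : EE n) :
    pf ε (‖nn v y - nn v x‖ ^ 2) ≤ 4 * ε := by
  have h := pf_le hε (norm_nonneg (nn v y - nn v x)) le_rfl
  have h2 : ‖nn v y - nn v x‖ ≤ 2 :=
    (norm_sub_le _ _).trans ((add_le_add (NN_le1 hv y) (NN_le1 hv x)).trans_eq (by norm_num))
  rw [add_zero, add_zero] at h
  nlinarith

theorem pf_le_gf (hv : Sol v) {ε : ℝ} (hε : 0 < ε) (x y : EE n) :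
    pf ε (‖nn v y - nn v x‖ ^ 2) ≤ 2 * gf v x y + 2 * ε * (tt v x + tt v y) := by
  have e : ‖nn v y - nn v x‖ ^ 2 = |NN v x - NN v y| ^ 2 + 2 * gf v x y := by
    rw [sq_abs, @norm_sub_sq_real, real_inner_comm]; simp only [gf, NN]; ring
  have h := pf_le hε (abs_nonneg (NN v x - NN v y)) (mul_nonneg zero_le_two (gf_nonneg v x y))
  have h1 := NN_le1 hv x
  have h2 := NN_le1 hv y
  have h3 : 0 ≤ NN v x := norm_nonneg _
  have h4 : 0 ≤ NN v y := norm_nonneg _
  have h5 : |NN v x - NN v y| ≤ tt v x + tt v y := by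
    change _ ≤ 1 - NN v x ^ 2 + (1 - NN v y ^ 2)
    exact abs_le.2 ⟨by nlinarith, by nlinarith⟩
  rw [e]
  nlinarith

theorem measurable_pf (hv : Sol v) (ε : ℝ) :
    Measurable fun p : EE n × EE n => pf ε (‖nn v p.2 - nn v p.1‖ ^ 2) := by
  have h : Continuous (nn v) := St.continuous_grad (hv.dd_cd 1)
  unfold pf
  fun_prop

/-! ### the two pointwise inequalities -/

theorem pt_E {a b w o c : ℝ} (ha : 0 ≤ a) (hb : 0 ≤ b) (hc : 0 ≤ c)
    (h : o = 1 ∧ w ≤ -1 / 8 ∨ o = 0 ∧ 1 ≤ c) :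
    (a - b) ^ 2 ≤ 8 * (o * -w * (a + b) ^ 2) + c * (a - b) ^ 2 := by
  rcases h with ⟨rfl, h⟩ | ⟨rfl, h⟩
  · nlinarith [mul_nonneg ha hb, mul_nonneg hc (sq_nonneg (a - b)),
      mul_nonneg (show 0 ≤ -w - 1 / 8 by linarith) (sq_nonneg (a + b))]
  · nlinarith [mul_nonneg (sub_nonneg.2 h) (sq_nonneg (a - b))]

theorem pt_G {a b w q o nr c s P t t' : ℝ} (ha : 0 ≤ a) (hb : 0 ≤ b) (hc : 0 ≤ c) (hn : 0 ≤ nr)
    (hs : 0 < s) (hq0 : 0 ≤ q) (hq : q ≤ 1) (hw : -w ≤ q) (ht : 0 ≤ t) (ht' : 0 ≤ t') (h1 : t ≤ 1)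
    (h1' : t' ≤ 1) (hP : P ≤ 4 * s) (hP' : P ≤ 2 * (q - w) + 2 * s * (t + t'))
    (h : o = 1 ∧ w ≤ -1 / 8 ∨ o = 0 ∧ (1 ≤ nr ∨ 1 ≤ c)) :
    (1 - 16 * s) * (o * -w * (a + b) ^ 2) + 1 / 2 * (P * a ^ 2) + 1 / 2 * (P * b ^ 2) +
      q * (a - b) ^ 2 ≤ (q - w) * (a ^ 2 + b ^ 2) + nr * q * (a - b) ^ 2 + c * (a - b) ^ 2 +
        3 * s * (t' * a ^ 2) + 3 * s * (t * b ^ 2) + 4 * s * (a - b) ^ 2 := by
  have hd := sq_nonneg (a - b)
  have hab := mul_nonneg ha hb
  have e1 := mul_nonneg (mul_nonneg hn hq0) hd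
  have e2 := mul_nonneg hc hd
  have e3 : 0 ≤ s * (t' * a ^ 2) := by positivity
  have e4 : 0 ≤ s * (t * b ^ 2) := by positivity
  have e5 : 0 ≤ s * (a - b) ^ 2 := by positivity
  have e6 : 0 ≤ a ^ 2 + b ^ 2 := by positivity
  rcases h with ⟨rfl, h⟩ | ⟨rfl, h⟩
  · have f1 := mul_le_mul_of_nonneg_right hP e6
    have f2 : 0 ≤ s * ((-w - 1 / 8) * (a + b) ^ 2) :=
      mul_nonneg hs.le (mul_nonneg (by linarith) (sq_nonneg _))
    have f3 := mul_nonneg (show 0 ≤ q + w by linarith) hab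
    have f4 := mul_nonneg hs.le hab
    nlinarith
  · have f1 := mul_le_mul_of_nonneg_right hP' e6
    have f2 : t * a ^ 2 ≤ 2 * (t * b ^ 2) + 2 * (a - b) ^ 2 := by
      nlinarith [mul_nonneg ht (sq_nonneg (a - 2 * b)), mul_nonneg (sub_nonneg.2 h1) hd]
    have f3 : t' * b ^ 2 ≤ 2 * (t' * a ^ 2) + 2 * (a - b) ^ 2 := by
      nlinarith [mul_nonneg ht' (sq_nonneg (b - 2 * a)), mul_nonneg (sub_nonneg.2 h1') hd]
    have f4 := mul_le_mul_of_nonneg_left f2 hs.le
    have f5 := mul_le_mul_of_nonneg_left f3 hs.le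
    have f6 : q * (a - b) ^ 2 ≤ nr * q * (a - b) ^ 2 + c * (a - b) ^ 2 := by
      rcases h with h | h
      · nlinarith [mul_nonneg (sub_nonneg.2 h) (mul_nonneg hq0 hd)]
      · nlinarith [mul_nonneg (sub_nonneg.2 h) hd, mul_nonneg (sub_nonneg.2 hq) hd]
    nlinarith

/-! ### the classes of pairs -/

def PO (v : EE n → ℝ) (T : ℝ) (x y : EE n) : Prop :=
  |dd v x| ≤ T ∧ |dd v y| ≤ T ∧ ⟪nn v x, nn v y⟫ ≤ -1 / 8
def PN (v : EE n → ℝ) (T L : ℝ) (x y : EE n) : Prop := |dd v x| ≤ T ∧ |dd v y| ≤ T ∧ dist x y ≤ L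
def PF (v : EE n → ℝ) (T L : ℝ) (x y : EE n) : Prop :=
  |dd v x| ≤ T ∧ |dd v y| ≤ T ∧ L < dist x y ∧ -1 / 8 < ⟪nn v x, nn v y⟫

theorem md (hv : Sol v) : Measurable (dd v) := (hv.dd_cd 1).continuous.measurable

theorem mb1 (hv : Sol v) (T : ℝ) : MeasurableSet {p : EE n × EE n | |dd v p.1| ≤ T} :=
  measurableSet_le ((md hv).comp measurable_fst).abs measurable_const

theorem mb2 (hv : Sol v) (T : ℝ) : MeasurableSet {p : EE n × EE n | |dd v p.2| ≤ T} :=
  measurableSet_le ((md hv).comp measurable_snd).abs measurable_const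

theorem mPO (hv : Sol v) (T : ℝ) : MeasurableSet {p : EE n × EE n | PO v T p.1 p.2} :=
  (mb1 hv T).inter ((mb2 hv T).inter (measurableSet_le (measurable_nn hv) measurable_const))

theorem mPN (hv : Sol v) (T L : ℝ) : MeasurableSet {p : EE n × EE n | PN v T L p.1 p.2} :=
  (mb1 hv T).inter ((mb2 hv T).inter (measurableSet_le measurable_dist measurable_const))

theorem mPF (hv : Sol v) (T L : ℝ) : MeasurableSet {p : EE n × EE n | PF v T L p.1 p.2} :=
  (mb1 hv T).inter ((mb2 hv T).inter ((measurableSet_lt measurable_const measurable_dist).inter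
    (measurableSet_lt measurable_const (measurable_nn hv))))

theorem mPD (hv : Sol v) (T : ℝ) : MeasurableSet {p : EE n × EE n | T < |dd v p.2|} :=
  measurableSet_lt measurable_const ((md hv).comp measurable_snd).abs

theorem cover (v : EE n → ℝ) (T L : ℝ) (x y : EE n) :
    ri (PO v T x y) = 1 ∧ ⟪nn v x, nn v y⟫ ≤ -1 / 8 ∨ ri (PO v T x y) = 0 ∧ (1 ≤ ri (PN v T L x y) ∨
      1 ≤ ri (PF v T L x y) + ri (T < |dd v y|) + ri (T < |dd v x|)) := by
  by_cases h : PO v T x y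
  · exact Or.inl ⟨ri_of h, h.2.2⟩
  refine Or.inr ⟨ri_of_not h, ?_⟩
  have h1 := ri_nonneg (PF v T L x y)
  have h2 := ri_nonneg (T < |dd v y|)
  have h3 := ri_nonneg (T < |dd v x|)
  by_cases hx : T < |dd v x|
  · exact Or.inr (by linarith [ri_of hx])
  by_cases hy : T < |dd v y|
  · exact Or.inr (by linarith [ri_of hy])
  by_cases hd : dist x y ≤ L
  · exact Or.inl (ri_of (P := PN v T L x y) ⟨not_lt.1 hx, not_lt.1 hy, hd⟩).ge
  have : PF v T L x y := ⟨not_lt.1 hx, not_lt.1 hy, not_le.1 hd,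
    not_le.1 fun h' => h ⟨not_lt.1 hx, not_lt.1 hy, h'⟩⟩
  exact Or.inr (by linarith [ri_of this])

/-- the real numbers of the assembly -/
def rE (v f : EE n → ℝ) : ℝ := II v fun p => (f p.1 - f p.2) ^ 2
def rT (v f : EE n → ℝ) : ℝ := II v fun p => tt v p.2 * f p.1 ^ 2
def rG (v f : EE n → ℝ) (T : ℝ) : ℝ :=
  II v fun p => ri (PO v T p.1 p.2) * -⟪nn v p.1, nn v p.2⟫ * (f p.1 + f p.2) ^ 2
def rP (v f : EE n → ℝ) (s : ℝ) : ℝ := II v fun p => pf s (‖nn v p.2 - nn v p.1‖ ^ 2) * f p.1 ^ 2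
def rN (v f : EE n → ℝ) (T L : ℝ) : ℝ :=
  II v fun p => ri (PN v T L p.1 p.2) * (NN v p.1 * NN v p.2) * (f p.1 - f p.2) ^ 2
def rC (v f : EE n → ℝ) (P : EE n → EE n → Prop) : ℝ :=
  II v fun p => ri (P p.1 p.2) * (f p.1 - f p.2) ^ 2

theorem domG (hv : Sol v) (hf : Ad v f A) (T : ℝ) :
    Dom f fun p => ri (PO v T p.1 p.2) * -⟪nn v p.1, nn v p.2⟫ * (f p.1 + f p.2) ^ 2 := by
  have h : Dom f fun p => (f p.1 + f p.2) ^ 2 := by
    have := (hf.dom11.add hf.dom22).add (hf.dom12.cmul 2)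
    convert this using 2
    ring
  simpa only [mul_assoc] using (h.bmul (c := fun p => -⟪nn v p.1, nn v p.2⟫) (measurable_nn hv).neg
    (A := 1) fun p => by rw [abs_neg]; exact abs_nn_le hv p).bmul (measurable_ri (mPO hv T))
      fun p => abs_ri_le _

theorem G_nonneg (v f : EE n → ℝ) (T : ℝ) (p : EE n × EE n) :
    0 ≤ ri (PO v T p.1 p.2) * -⟪nn v p.1, nn v p.2⟫ * (f p.1 + f p.2) ^ 2 := by
  by_cases h : PO v T p.1 p.2
  · exact mul_nonneg (mul_nonneg (ri_nonneg _) (by linarith [h.2.2])) (sq_nonneg _)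
  · simp [ri_of_not h]

theorem domP (hv : Sol v) (hf : Ad v f A) {s : ℝ} (hs : 0 < s) :
    Dom f fun p => pf s (‖nn v p.2 - nn v p.1‖ ^ 2) * f p.1 ^ 2 :=
  hf.dom11.bmul (measurable_pf hv s) (A := 4 * s) fun p => by
    rw [abs_of_nonneg (pf_nonneg hs (sq_nonneg _))]; exact pf_le_four hv hs _ _

theorem domN (hv : Sol v) (hf : Ad v f A) (T L : ℝ) :
    Dom f fun p => ri (PN v T L p.1 p.2) * (NN v p.1 * NN v p.2) * (f p.1 - f p.2) ^ 2 := by
  simpa only [mul_assoc] using (hf.domd.bmul (c := fun p => NN v p.1 * NN v p.2)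
    (measurable_NN hv) (abs_NN_le hv)).bmul (measurable_ri (mPN hv T L)) fun p => abs_ri_le _

theorem domC (hf : Ad v f A) {P : EE n → EE n → Prop}
    (hP : MeasurableSet {p : EE n × EE n | P p.1 p.2}) :
    Dom f fun p => ri (P p.1 p.2) * (f p.1 - f p.2) ^ 2 :=
  hf.domd.bmul (measurable_ri hP) fun _ => abs_ri_le _

theorem rC_swap (v f : EE n → ℝ) (T : ℝ) :
    II v (fun p => ri (T < |dd v p.1|) * (f p.2 - f p.1) ^ 2) = rC v f fun _ y => T < |dd v y| :=
  II_swap v fun p => ri (T < |dd v p.2|) * (f p.1 - f p.2) ^ 2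

/-- the full form is carried by the four classes -/
theorem rE_le (hv : Sol v) (hf : Ad v f A) (h0 : ∀ x, 0 ≤ f x) (T L : ℝ) :
    rE v f ≤ 8 * rG v f T + rC v f (PN v T L) + rC v f (PF v T L) +
      2 * rC v f fun _ y => T < |dd v y| := by
  have d1 := (domG hv hf T).cmul 8
  have d2 := domC hf (mPN hv T L)
  have d3 := domC hf (mPF hv T L)
  have d4 := domC hf (P := fun _ y => T < |dd v y|) (mPD hv T)
  have d5 : Dom f fun p => ri (T < |dd v p.1|) * (f p.2 - f p.1) ^ 2 := d4.swap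
  have h := II_mono hv hf hf.domd ((((d1.add d2).add d3).add d4).add d5) fun p => by
    have := pt_E (h0 p.1) (h0 p.2) (o := ri (PO v T p.1 p.2)) (w := ⟪nn v p.1, nn v p.2⟫)
      (c := ri (PN v T L p.1 p.2) + (ri (PF v T L p.1 p.2) + ri (T < |dd v p.2|) +
        ri (T < |dd v p.1|))) (add_nonneg (ri_nonneg _) (add_nonneg (add_nonneg (ri_nonneg _)
          (ri_nonneg _)) (ri_nonneg _))) ((cover v T L p.1 p.2).imp id (And.imp_right fun h => by
            rcases h with h | h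
            · linarith [ri_nonneg (PF v T L p.1 p.2), ri_nonneg (T < |dd v p.2|),
                ri_nonneg (T < |dd v p.1|)]
            · linarith [ri_nonneg (PN v T L p.1 p.2)]))
    linarith
  rw [II_add hv hf (((d1.add d2).add d3).add d4) d5, II_add hv hf ((d1.add d2).add d3) d4,
    II_add hv hf (d1.add d2) d3, II_add hv hf d1 d2, II_const_mul, rC_swap] at h
  unfold rE rG
  unfold rC at h ⊢
  linarith

/-- NSZ split into the classes -/
theorem gain_le (hv : Sol v) (hst : Stable v) (hf : Ad v f A) (h0 : ∀ x, 0 ≤ f x) (T L : ℝ) {s : ℝ}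
    (hs : 0 < s) : (1 - 16 * s) * rG v f T + rP v f s ≤ rN v f T L + rC v f (PF v T L) +
      2 * rC v f (fun _ y => T < |dd v y|) + 6 * s * rT v f + 4 * s * rE v f := by
  have a1 := (domG hv hf T).cmul (1 - 16 * s)
  have a2 := (domP hv hf hs).cmul (1 / 2)
  have a3 : Dom f fun p => 1 / 2 * (pf s (‖nn v p.1 - nn v p.2‖ ^ 2) * f p.2 ^ 2) := a2.swap
  have a4 := hf.domd.bmul (measurable_NN hv) (abs_NN_le hv)
  have b0 := hf.dom11.bmul (measurable_gf hv) (abs_gf_le hv)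
  have b1 := hf.dom22.bmul (measurable_gf hv) (abs_gf_le hv)
  have b2 := domN hv hf T L
  have b3 := domC hf (mPF hv T L)
  have b4 := domC hf (P := fun _ y => T < |dd v y|) (mPD hv T)
  have b5 : Dom f fun p => ri (T < |dd v p.1|) * (f p.2 - f p.1) ^ 2 := b4.swap
  have b6 := (domt hv hf).cmul (3 * s)
  have b7 : Dom f fun p => 3 * s * (tt v p.1 * f p.2 ^ 2) := b6.swap
  have b8 := hf.domd.cmul (4 * s)
  have h := II_mono hv hf (((a1.add a2).add a3).add a4)
    ((((((((b0.add b1).add b2).add b3).add b4).add b5).add b6).add b7).add b8) fun p => by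
    have := pt_G (h0 p.1) (h0 p.2) (add_nonneg (add_nonneg (ri_nonneg _) (ri_nonneg _))
      (ri_nonneg _)) (ri_nonneg _) hs (q := NN v p.1 * NN v p.2)
      (mul_nonneg (norm_nonneg _) (norm_nonneg _)) (NN_le hv _ _)
      ((neg_le_abs _).trans (abs_real_inner_le_norm _ _)) (hv.tt_nonneg p.1) (hv.tt_nonneg p.2)
      (tt_le_one v p.1) (tt_le_one v p.2) (pf_le_four hv hs p.1 p.2) (pf_le_gf hv hs p.1 p.2)
      (cover v T L p.1 p.2)
    rw [norm_sub_rev (nn v p.1)]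
    change _ + NN v p.1 * NN v p.2 * _ ≤ _
    unfold gf
    linarith
  rw [II_add hv hf ((a1.add a2).add a3) a4, II_add hv hf (a1.add a2) a3, II_add hv hf a1 a2,
    II_add hv hf (((((((b0.add b1).add b2).add b3).add b4).add b5).add b6).add b7) b8,
    II_add hv hf ((((((b0.add b1).add b2).add b3).add b4).add b5).add b6) b7,
    II_add hv hf (((((b0.add b1).add b2).add b3).add b4).add b5) b6,
    II_add hv hf ((((b0.add b1).add b2).add b3).add b4) b5,
    II_add hv hf (((b0.add b1).add b2).add b3) b4, II_add hv hf ((b0.add b1).add b2) b3,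
    II_add hv hf (b0.add b1) b2, II_add hv hf b0 b1, rC_swap] at h
  simp only [II_const_mul] at h
  have e1 : II v (fun p => pf s (‖nn v p.1 - nn v p.2‖ ^ 2) * f p.2 ^ 2) = rP v f s :=
    II_swap v fun p => pf s (‖nn v p.2 - nn v p.1‖ ^ 2) * f p.1 ^ 2
  have e2 : II v (fun p => tt v p.1 * f p.2 ^ 2) = rT v f :=
    II_swap v fun p => tt v p.2 * f p.1 ^ 2
  have e3 : II v (fun p => gf v p.1 p.2 * f p.2 ^ 2) = II v fun p => gf v p.1 p.2 * f p.1 ^ 2 := by
    rw [← II_swap v fun p => gf v p.1 p.2 * f p.1 ^ 2]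
    simp only [Prod.fst_swap, Prod.snd_swap, gf_comm v]
  have e4 : 2 * II v (fun p => gf v p.1 p.2 * f p.1 ^ 2) ≤ _ := nsz hv hst hf
  rw [e1, e2, e3] at h
  unfold rE rG rN
  unfold rC rP rT at h ⊢
  linarith

end

end Crest.Agent.N067.S.Tp
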